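import Vale.Agent.P214.KMS.Conv
import Vale.Agent.P214.Skel.Defs

/-!
# P214, block KMS: heights relative to a minimal reference, weak linear equation

`rel T w y = q y - w y` (`w` base dependent, values in `Tᗮ`).
-/

open Set Filter Topology MeasureTheory Metric
open scoped RealInnerProductSpace ContDiff

set_option linter.all false

namespace Vale.Agent.P214.KMS

open Vale.Agent.P214.FV Vale.Agent.P214.Skel

variable {E : Type*} [NormedAddCommGroup E] [InnerProductSpace ℝ E] [FiniteDimensional ℝ E]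

/-- a smooth reference map: base dependent with values in `Tᗮ` -/
structure Ref (T : Submodule ℝ E) (w : E → E) : Prop where
  smooth : ContDiff ℝ ∞ w
  base : ∀ y, w y = w (T.starProjection y)
  perp : ∀ y, w y ∈ Tᗮ

/-- the relative height -/
noncomputable def rel (T : Submodule ℝ E) (w : E → E) (y : E) : E := co T y - w y

variable {T : Submodule ℝ E} {w : E → E}

lemma Ref.c2 (hw : Ref T w) : ContDiff ℝ 2 w := hw.smooth.of_le two_le_inf

lemma Ref.diff (hw : Ref T w) : Differentiable ℝ w := hw.smooth.differentiable (by simp)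

lemma base_fderiv {F : Type*} [NormedAddCommGroup F] [NormedSpace ℝ F] {f : E → F}
    (hf : Differentiable ℝ f) (hb : ∀ y, f y = f (T.starProjection y)) (y v : E) :
    fderiv ℝ f y v = fderiv ℝ f y (T.starProjection v) := by
  have h1 : HasFDerivAt (fun y => f (T.starProjection y))
      ((fderiv ℝ f (T.starProjection y)).comp T.starProjection) y :=
    (hf (T.starProjection y)).hasFDerivAt.comp y T.starProjection.hasFDerivAt
  have h2 : (fun y => f (T.starProjection y)) = f := by funext y; exact (hb y).symm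
  rw [h2] at h1
  rw [h1.fderiv]
  simp only [ContinuousLinearMap.comp_apply, star_self]

lemma base_fderiv' {F : Type*} [NormedAddCommGroup F] [NormedSpace ℝ F] {f : E → F}
    (hf : Differentiable ℝ f) (hb : ∀ y, f y = f (T.starProjection y)) (y : E) :
    fderiv ℝ f y = fderiv ℝ f (T.starProjection y) := by
  have key : ∀ y, fderiv ℝ f y = (fderiv ℝ f (T.starProjection y)).comp T.starProjection := by
    intro y
    have h1 : HasFDerivAt (fun y => f (T.starProjection y))
        ((fderiv ℝ f (T.starProjection y)).comp T.starProjection) y :=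
      (hf (T.starProjection y)).hasFDerivAt.comp y T.starProjection.hasFDerivAt
    have h2 : (fun y => f (T.starProjection y)) = f := by funext y; exact (hb y).symm
    rw [h2] at h1
    exact h1.fderiv
  rw [key y]
  conv_rhs => rw [key (T.starProjection y), star_self]

lemma Ref.slope (hw : Ref T w) (y : E) : Slope T (fderiv ℝ w y) := by
  refine ⟨fun v => ?_, fun v => base_fderiv hw.diff hw.base y v⟩
  -- derivative of a `Tᗮ`-valued map
  rw [Submodule.mem_orthogonal]
  intro t ht
  have h1 : HasFDerivAt (fun y => ⟪t, w y⟫) ((innerSL ℝ t).comp (fderiv ℝ w y)) y :=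
    (innerSL ℝ t).hasFDerivAt.comp y (hw.diff y).hasFDerivAt
  have h2 : (fun y => ⟪t, w y⟫) = fun _ => (0 : ℝ) := by
    funext y; exact (Submodule.mem_orthogonal _ _).1 (hw.perp y) t ht
  rw [h2] at h1
  have h3 := h1.unique (hasFDerivAt_const (0 : ℝ) y)
  have := congrArg (fun L : E →L[ℝ] ℝ => L v) h3
  simpa using this

lemma Ref.hasFDerivAt_rel (hw : Ref T w) (y : E) :
    HasFDerivAt (rel T w) (slp T (fderiv ℝ w y)) y :=
  (co T).hasFDerivAt.sub (hw.diff y).hasFDerivAt

lemma Ref.contDiff_rel (hw : Ref T w) : ContDiff ℝ ∞ (rel T w) :=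
  (co T).contDiff.sub hw.smooth

lemma Ref.rel_mem (hw : Ref T w) (y : E) : rel T w y ∈ Tᗮ := by
  refine Tᗮ.sub_mem ?_ (hw.perp y)
  rw [co_eq]
  exact Submodule.starProjection_apply_mem _ _

/-- relative energy = `gsq` -/
lemma Ref.gsq_eq_ew (hw : Ref T w) (S : Submodule ℝ E) (y : E) :
    gsq (rel T w) S.starProjection y = ew T (fderiv ℝ w y) S.starProjection := by
  rw [gsq_eq, ew, hs]
  refine Finset.sum_congr rfl fun k _ => ?_
  rw [(hw.hasFDerivAt_rel y).fderiv]
  rfl

/-- `lap` of the relative height -/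
lemma Ref.lap_rel (hw : Ref T w) (B : E →L[ℝ] E) (y : E) : lap (rel T w) B y = -lap w B y := by
  have h1 : fderiv ℝ (rel T w) = fun y => co T - fderiv ℝ w y := by
    funext y; exact (hw.hasFDerivAt_rel y).fderiv
  have h2 : ContDiff ℝ 1 (fderiv ℝ w) := hw.c2.fderiv_right (by norm_num)
  have h3 : HasFDerivAt (fun y => co T - fderiv ℝ w y) (0 - fderiv ℝ (fderiv ℝ w) y) y :=
    (hasFDerivAt_const (co T) y).sub (h2.differentiable (by norm_num) y).hasFDerivAt
  rw [lap, lap, h1, h3.fderiv, ← Finset.sum_neg_distrib]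
  refine Finset.sum_congr rfl fun k _ => ?_
  simp

lemma hess_eq_lap {F : E → ℝ} (hF : ContDiff ℝ 2 F) (B : E →L[ℝ] E) (y : E) :
    hess F B y = lap F B y := hess_eq_sum hF (stdOrthonormalBasis ℝ E) B y

/-- `lap` of a component -/
lemma lap_inner {f : E → E} (hf : ContDiff ℝ 2 f) (a : E) (B : E →L[ℝ] E) (y : E) :
    lap (fun y => ⟪a, f y⟫) B y = ⟪a, lap f B y⟫ := by
  have hfd : Differentiable ℝ f := hf.differentiable (by norm_num)
  have h2 : ContDiff ℝ 1 (fderiv ℝ f) := hf.fderiv_right (by norm_num)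
  have h1 : fderiv ℝ (fun y => ⟪a, f y⟫) = fun y => (innerSL ℝ a).comp (fderiv ℝ f y) := by
    funext y
    exact ((innerSL ℝ a).hasFDerivAt.comp y (hfd y).hasFDerivAt).fderiv
  have h3 : HasFDerivAt (fun y => (innerSL ℝ a).comp (fderiv ℝ f y))
      ((ContinuousLinearMap.compL ℝ E E ℝ (innerSL ℝ a)).comp (fderiv ℝ (fderiv ℝ f) y)) y :=
    (ContinuousLinearMap.compL ℝ E E ℝ (innerSL ℝ a)).hasFDerivAt.comp y
      (h2.differentiable (by norm_num) y).hasFDerivAt
  rw [lap, lap, h1, h3.fderiv, inner_sum]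
  refine Finset.sum_congr rfl fun k _ => ?_
  rfl

/-- base dependence of second derivatives -/
lemma base_fderiv2 {F : Type*} [NormedAddCommGroup F] [NormedSpace ℝ F] {f : E → F}
    (hf : ContDiff ℝ 2 f) (hb : ∀ y, f y = f (T.starProjection y)) (y u v : E) :
    fderiv ℝ (fderiv ℝ f) y u v = fderiv ℝ (fderiv ℝ f) y (T.starProjection u) v ∧
    fderiv ℝ (fderiv ℝ f) y u v = fderiv ℝ (fderiv ℝ f) y u (T.starProjection v) := by
  have hfd : Differentiable ℝ f := hf.differentiable (by norm_num)
  have h2 : ContDiff ℝ 1 (fderiv ℝ f) := hf.fderiv_right (by norm_num)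
  have h2d : Differentiable ℝ (fderiv ℝ f) := h2.differentiable (by norm_num)
  constructor
  · rw [base_fderiv h2d (fun y => base_fderiv' hfd hb y) y u]
  · have h3 : ∀ v, HasFDerivAt (fun y => fderiv ℝ f y v)
        ((ContinuousLinearMap.apply ℝ F v).comp (fderiv ℝ (fderiv ℝ f) y)) y := fun v =>
      (ContinuousLinearMap.apply ℝ F v).hasFDerivAt.comp y (h2d y).hasFDerivAt
    have h4 : (fun y => fderiv ℝ f y v) = fun y => fderiv ℝ f y (T.starProjection v) := by
      funext y; exact base_fderiv hfd hb y v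
    have h5 := h3 v
    rw [h4] at h5
    have h6 := h5.unique (h3 (T.starProjection v))
    have := congrArg (fun L : E →L[ℝ] F => L u) h6
    simpa using this

variable [MeasurableSpace E] [BorelSpace E]
variable {m : ℕ} {G : Set E} {h : ℝ} {ν : Measure E} {P : E → E →L[ℝ] E}

/-- **Weak equation for the relative height.** -/
lemma weak_rel (hC : CylStat m T G h ν P) (hw : Ref T w) {Φ : E → ℝ} (hΦ : ContDiff ℝ 2 Φ)
    (hb : BaseCpt T G Φ) :
    ∫ y, (lap Φ (P y) y) • rel T w y ∂ν = -∫ y, Φ y • lap w (P y) y ∂ν := by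
  have hrel2 : ContDiff ℝ 2 (rel T w) := hw.contDiff_rel.of_le two_le_inf
  obtain ⟨K, hK, hKG, h0⟩ := hb
  have hb : BaseCpt T G Φ := ⟨K, hK, hKG, h0⟩
  have hlap0 : ∀ B y, T.starProjection y ∉ K → lap Φ B y = 0 := by
    intro B y hy
    have hopen : IsOpen {z : E | T.starProjection z ∉ K} :=
      hK.isClosed.isOpen_compl.preimage T.starProjection.continuous
    have h1 : Φ =ᶠ[𝓝 y] fun _ => (0 : ℝ) := by
      filter_upwards [hopen.mem_nhds hy] with z hz
      exact h0 z hz
    have h2 : fderiv ℝ Φ =ᶠ[𝓝 y] fun _ => (0 : E →L[ℝ] ℝ) := by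
      filter_upwards [h1.eventuallyEq_nhds] with z hz
      rw [hz.fderiv_eq]; simp
    rw [lap, h2.fderiv_eq]
    simp
  have i1 : Integrable (fun y => (lap Φ (P y) y) • rel T w y) ν := by
    have : ∀ a : E, Integrable (fun y => ⟪a, (lap Φ (P y) y) • rel T w y⟫) ν := fun a => by
      refine hC.integrable_gen (Φ := fun q => ⟪a, (lap Φ q.1 q.2) • rel T w q.2⟫) ?_ hK hKG
        fun B y hy => by simp [hlap0 B y hy]
      exact continuous_const.inner ((continuous_lap hΦ).smul
        (hw.contDiff_rel.continuous.comp continuous_snd))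
    have h2 := integrable_finset_sum Finset.univ fun k (_ : k ∈ Finset.univ) =>
      (this (stdOrthonormalBasis ℝ E k)).smul_const (stdOrthonormalBasis ℝ E k)
    refine h2.congr (Eventually.of_forall fun y => ?_)
    exact (stdOrthonormalBasis ℝ E).sum_repr' _
  have i2 : Integrable (fun y => Φ y • lap w (P y) y) ν := by
    have : ∀ a : E, Integrable (fun y => ⟪a, Φ y • lap w (P y) y⟫) ν := fun a => by
      refine hC.integrable_gen (Φ := fun q => ⟪a, Φ q.2 • lap w q.1 q.2⟫) ?_ hK hKG
        fun B y hy => by simp [h0 y hy]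
      exact continuous_const.inner ((hΦ.continuous.comp continuous_snd).smul (continuous_lap hw.c2))
    have h2 := integrable_finset_sum Finset.univ fun k (_ : k ∈ Finset.univ) =>
      (this (stdOrthonormalBasis ℝ E k)).smul_const (stdOrthonormalBasis ℝ E k)
    refine h2.congr (Eventually.of_forall fun y => ?_)
    exact (stdOrthonormalBasis ℝ E).sum_repr' _
  refine ext_inner_left ℝ fun a => ?_
  rw [inner_neg_right, ← integral_inner i1, ← integral_inner i2]
  have h1 := hC.second hΦ (F := fun y => ⟪a, rel T w y⟫) (contDiff_const.inner ℝ hrel2) hb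
  have e1 : ∀ y, hess (fun y => ⟪a, rel T w y⟫) (P y) y = -⟪a, lap w (P y) y⟫ := fun y => by
    rw [hess_eq_lap (contDiff_const.inner ℝ hrel2), lap_inner hrel2, hw.lap_rel, inner_neg_right]
  simp only [e1, hess_eq_lap hΦ] at h1
  calc ∫ y, ⟪a, lap Φ (P y) y • rel T w y⟫ ∂ν = ∫ y, ⟪a, rel T w y⟫ * lap Φ (P y) y ∂ν := by
        refine integral_congr_ae (Eventually.of_forall fun y => ?_)
        simp only [inner_smul_right]; ring
    _ = ∫ y, Φ y * -⟪a, lap w (P y) y⟫ ∂ν := h1.symm
    _ = -∫ y, ⟪a, Φ y • lap w (P y) y⟫ ∂ν := by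
        rw [← integral_neg]
        refine integral_congr_ae (Eventually.of_forall fun y => ?_)
        simp only [inner_smul_right]; ring

/-- pointwise bound of `tr_P D²w` for an exactly minimal `w` -/
lemma norm_lap_le (hw : Ref T w) {S : Submodule ℝ E} (hS : Module.finrank ℝ S = m)
    (hT : Module.finrank ℝ T = m) {y : E}
    (hex : lap w (gpl T (fderiv ℝ w y)).starProjection y = 0) :
    ‖lap w S.starProjection y‖ ≤ ‖fderiv ℝ (fderiv ℝ w) y‖ *
      (2 * gsq (rel T w) S.starProjection y +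
        2 * ‖fderiv ℝ w y‖ * (√m * √(gsq (rel T w) S.starProjection y))) := by
  have h1 := norm_trb_sub_le (hw.slope y) S (by rw [finrank_gpl (hw.slope y), hS, hT])
    (fderiv ℝ (fderiv ℝ w) y) (fun u v => (base_fderiv2 hw.c2 hw.base y u v).1)
    (fun u v => (base_fderiv2 hw.c2 hw.base y u v).2)
  have h2 : trb (fderiv ℝ (fderiv ℝ w) y) (gpl T (fderiv ℝ w y)).starProjection = 0 := hex
  have h3 : trb (fderiv ℝ (fderiv ℝ w) y) S.starProjection = lap w S.starProjection y := rfl
  rw [h2, sub_zero, h3] at h1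
  refine h1.trans ?_
  have h4 := tilt_gpl_le (hw.slope y) S
  rw [← hw.gsq_eq_ew] at h4
  have h5 : (Module.finrank ℝ S : ℝ) = m := by rw [hS]
  rw [h5]
  gcongr

/-- flat comparison for base functions -/
lemma abs_lap_sub_le {Φ : E → ℝ} (hΦ : ContDiff ℝ 2 Φ) (hb : ∀ y, Φ y = Φ (T.starProjection y))
    {S : Submodule ℝ E} (hS : Module.finrank ℝ S = Module.finrank ℝ T) (y : E) :
    |lap Φ S.starProjection y - lap Φ T.starProjection y| ≤
      ‖fderiv ℝ (fderiv ℝ Φ) y‖ * (2 * tilt T S.starProjection) :=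
  norm_trb_sub_flat_le S hS (fderiv ℝ (fderiv ℝ Φ) y)
    (fun u v => (base_fderiv2 hΦ hb y u v).1) (fun u v => (base_fderiv2 hΦ hb y u v).2)

end Vale.Agent.P214.KMS
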