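import Vale.Agent.P214.KMS.Sheet

/-!
# P214, block KMS: the kernel mean sheet

`KHyp` : a stationary measure in a cylinder of radius `R`, a reference `w` which is exactly minimal,
heights relative to `w` at most `lam R`, relative energy at most `lam² R^m`.
-/

open Set Filter Topology MeasureTheory Metric
open scoped RealInnerProductSpace ContDiff

set_option linter.all false

namespace Vale.Agent.P214.KMS

open Vale.Agent.P214.FV Vale.Agent.P214.Skel

variable {E : Type*} [NormedAddCommGroup E] [InnerProductSpace ℝ E] [FiniteDimensional ℝ E]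
variable [MeasurableSpace E] [BorelSpace E]

/-- the setting -/
structure KHyp (m : ℕ) (T : Submodule ℝ E) (z : E) (R h : ℝ) (ν : Measure E)
    (P : E → E →L[ℝ] E) (w : E → E) (κ lam M : ℝ) : Prop where
  cyl : CylStat m T (ball z R) h ν P
  pos : 0 < R
  ref : Ref T w
  exact : ∀ y, T.starProjection y ∈ ball z R → lap w (gpl T (fderiv ℝ w y)).starProjection y = 0
  κ0 : 0 ≤ κ
  k1 : ∀ y, T.starProjection y ∈ ball z R → ‖fderiv ℝ w y‖ ≤ κ
  k2 : ∀ y, T.starProjection y ∈ ball z R → R * ‖fderiv ℝ (fderiv ℝ w) y‖ ≤ κ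
  lam0 : 0 ≤ lam
  sup : ∀ᵐ y ∂ν, T.starProjection y ∈ ball z R → ‖rel T w y‖ ≤ lam * R
  en : ∫ y in cylSet T z R, gsq (rel T w) (P y) y ∂ν ≤ lam ^ 2 * R ^ m
  M0 : 0 ≤ M
  mass : ν.real (cylSet T z R) ≤ M * R ^ m

variable {m : ℕ} {T : Submodule ℝ E} {z : E} {R h : ℝ} {ν : Measure E} {P : E → E →L[ℝ] E}
  {w : E → E} {κ lam M : ℝ}

lemma measurableSet_cylSet (T : Submodule ℝ E) (z : E) (R : ℝ) : MeasurableSet (cylSet T z R) :=
  (isOpen_ball.preimage T.starProjection.continuous).measurableSet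

lemma ew_le (T : Submodule ℝ E) (A : E →L[ℝ] E) (S : Submodule ℝ E) :
    ew T A S.starProjection ≤ (1 + ‖A‖) ^ 2 * Module.finrank ℝ S := by
  rw [← sum_norm_sq_star S, ew, hs, Finset.mul_sum]
  refine Finset.sum_le_sum fun k _ => ?_
  simp only [ContinuousLinearMap.comp_apply]
  set y := S.starProjection (stdOrthonormalBasis ℝ E k)
  rw [← mul_pow]
  have : ‖slp T A y‖ ≤ (1 + ‖A‖) * ‖y‖ := by
    have h1 : slp T A y = co T y - A y := by rw [slp]; simp
    rw [h1]
    calc ‖co T y - A y‖ ≤ ‖co T y‖ + ‖A y‖ := norm_sub_le _ _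
      _ ≤ ‖y‖ + ‖A‖ * ‖y‖ := add_le_add (norm_co_le T y) (A.le_opNorm y)
      _ = _ := by ring
  gcongr

lemma final_alg {R : ℝ} (hR : R ≠ 0) (b2 b0 lam A Y Z : ℝ) :
    b2 * (lam * R) * (A * Y * Z) + b0 * (1 / R) * (A * lam * Y * Z) =
      A * (b2 * R ^ 2 + b0) * lam * Y * Z / R := by
  field_simp

namespace KHyp

variable (H : KHyp m T z R h ν P w κ lam M)

include H

lemma gsq_bdd : ∀ᵐ y ∂(ν.restrict (cylSet T z R)),
    0 ≤ gsq (rel T w) (P y) y ∧ gsq (rel T w) (P y) y ≤ (1 + κ) ^ 2 * m := by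
  rw [ae_restrict_iff' (measurableSet_cylSet T z R)]
  filter_upwards [H.cyl.proj] with y hy hyc
  obtain ⟨S, hS, hP⟩ := hy
  rw [hP]
  refine ⟨gsq_nonneg _ _ _, ?_⟩
  rw [H.ref.gsq_eq_ew]
  refine (ew_le T _ S).trans ?_
  rw [hS]
  have := H.k1 y hyc
  gcongr

lemma integrable_gsq : Integrable (fun y => gsq (rel T w) (P y) y) (ν.restrict (cylSet T z R)) := by
  have := H.cyl.fin
  refine Integrable.mono' (integrable_const ((1 + κ) ^ 2 * m)) ?_ ?_
  · exact (H.cyl.aesm (continuous_gsq (H.ref.contDiff_rel.of_le (by simp)))).restrict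
  · filter_upwards [H.gsq_bdd] with y hy
    rw [Real.norm_eq_abs, abs_of_nonneg hy.1]
    exact hy.2

lemma integrable_sqrt : Integrable (fun y => √(gsq (rel T w) (P y) y))
    (ν.restrict (cylSet T z R)) := by
  have := H.cyl.fin
  refine Integrable.mono' (integrable_const (1 + (1 + κ) ^ 2 * m)) ?_ ?_
  · exact (Real.continuous_sqrt.comp_aestronglyMeasurable
      (H.cyl.aesm (continuous_gsq (H.ref.contDiff_rel.of_le (by simp))))).restrict
  · filter_upwards [H.gsq_bdd] with y hy
    rw [Real.norm_eq_abs, abs_of_nonneg (Real.sqrt_nonneg _)]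
    have h1 : √(gsq (rel T w) (P y) y) ≤ 1 + gsq (rel T w) (P y) y := by
      rw [Real.sqrt_le_left (by linarith [hy.1])]
      nlinarith [hy.1]
    linarith [hy.2]

/-- Cauchy-Schwarz for `∫ √gsq` -/
lemma integral_sqrt_le : ∫ y in cylSet T z R, √(gsq (rel T w) (P y) y) ∂ν ≤ lam * √M * R ^ m := by
  have := H.cyl.fin
  have i1 := H.integrable_gsq
  have i2 := H.integrable_sqrt
  have hR := H.pos
  have h1 := H.en
  have h2 := H.mass
  set I := ∫ y in cylSet T z R, gsq (rel T w) (P y) y ∂ν with hI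
  set J := ∫ y in cylSet T z R, √(gsq (rel T w) (P y) y) ∂ν with hJ
  set N := ν.real (cylSet T z R) with hN
  have hN0 : 0 ≤ N := measureReal_nonneg
  -- for every `s > 0`: `J ≤ (s N + I / s)/2`
  have key : ∀ s : ℝ, 0 < s → 2 * J ≤ s * N + I / s := by
    intro s hs
    have h3 : ∫ y in cylSet T z R, 2 * √(gsq (rel T w) (P y) y) ∂ν ≤
        ∫ y in cylSet T z R, (s + gsq (rel T w) (P y) y / s) ∂ν := by
      refine integral_mono_ae (i2.const_mul 2) ((integrable_const s).add (i1.div_const s)) ?_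
      filter_upwards [H.gsq_bdd] with y hy
      have h4 : √(gsq (rel T w) (P y) y) ^ 2 = gsq (rel T w) (P y) y := Real.sq_sqrt hy.1
      show 2 * √(gsq (rel T w) (P y) y) ≤ s + gsq (rel T w) (P y) y / s
      set a := √(gsq (rel T w) (P y) y)
      rw [← h4]
      have h5 : s + a ^ 2 / s - 2 * a = (s - a) ^ 2 / s := by field_simp; ring
      have h6 : 0 ≤ (s - a) ^ 2 / s := by positivity
      linarith
    rw [integral_const_mul, integral_add (integrable_const s) (i1.div_const s), integral_div,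
      integral_const] at h3
    simp only [measureReal_restrict_apply_univ, smul_eq_mul] at h3
    linarith
  have hI0 : 0 ≤ I := by
    refine integral_nonneg_of_ae ?_
    filter_upwards [H.gsq_bdd] with y hy using hy.1
  have hRm : 0 < R ^ m := by positivity
  by_cases hlam : lam = 0
  · -- energy zero
    have hI' : I ≤ 0 := by rw [hlam] at h1; simpa using h1
    have : J ≤ 0 := by
      by_contra hJ0
      rw [not_le] at hJ0
      have h3 := key (J / (N + 1)) (by positivity)
      have h4 : I / (J / (N + 1)) ≤ 0 := div_nonpos_of_nonpos_of_nonneg hI' (by positivity)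
      have h5 : J / (N + 1) * N ≤ J := by
        rw [div_mul_eq_mul_div, div_le_iff₀ (by positivity)]
        nlinarith
      linarith
    rw [hlam]; simpa using this
  by_cases hM : M = 0
  · have hN' : N ≤ 0 := by rw [hM] at h2; simpa using h2
    have hN'' : N = 0 := le_antisymm hN' hN0
    have hz : ν (cylSet T z R) = 0 := by
      rw [hN, measureReal_def, ENNReal.toReal_eq_zero_iff] at hN''
      rcases hN'' with h | h
      · exact h
      · exact absurd h (measure_ne_top _ _)
    have : J = 0 := by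
      rw [hJ, Measure.restrict_eq_zero.2 hz]; simp
    rw [this, hM]; simp
  have hlam' : 0 < lam := lt_of_le_of_ne H.lam0 (Ne.symm hlam)
  have hM' : 0 < M := lt_of_le_of_ne H.M0 (Ne.symm hM)
  have hsM : 0 < √M := Real.sqrt_pos.2 hM'
  have h3 := key (lam / √M) (by positivity)
  have h4 : lam / √M * N ≤ lam * √M * R ^ m := by
    calc lam / √M * N ≤ lam / √M * (M * R ^ m) := by gcongr
      _ = lam * √M * R ^ m := by
          have : M = √M * √M := (Real.mul_self_sqrt H.M0).symm
          rw [div_mul_eq_mul_div, div_eq_iff hsM.ne']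
          nth_rewrite 1 [this]
          ring
  have h5 : I / (lam / √M) ≤ lam * √M * R ^ m := by
    rw [div_le_iff₀ (by positivity)]
    calc I ≤ lam ^ 2 * R ^ m := h1
      _ = lam * √M * R ^ m * (lam / √M) := by field_simp
  linarith

/-- **Quantitative weak equation**: for a base function `Φ` supported over `ball x₀ r ⊆ ball z R` -/
lemma weak {Φ : E → ℝ} (hΦ : ContDiff ℝ 2 Φ)
    (hbase : ∀ y, Φ y = Φ (T.starProjection y)) (hb : BaseCpt T (ball z R) Φ) {b0 b2 : ℝ}
    (h0 : ∀ y, |Φ y| ≤ b0) (h2 : ∀ y, ‖fderiv ℝ (fderiv ℝ Φ) y‖ ≤ b2) :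
    ‖∫ y in cylSet T z R, (lap Φ T.starProjection y) • rel T w y ∂ν‖ ≤
      (4 * (1 + m) * (1 + M)) * (b2 * R ^ 2 + b0) * lam * (κ + lam) ^ 2 * R ^ m / R := by
  have := H.cyl.fin
  have hR := H.pos
  have hb00 : 0 ≤ b0 := (abs_nonneg _).trans (h0 0)
  have hb20 : 0 ≤ b2 := le_trans (norm_nonneg (fderiv ℝ (fderiv ℝ Φ) 0)) (h2 0)
  obtain ⟨K, hK, hKG, hK0⟩ := hb
  have hb : BaseCpt T (ball z R) Φ := ⟨K, hK, hKG, hK0⟩
  have hlap0 : ∀ B y, T.starProjection y ∉ K → lap Φ B y = 0 := by
    intro B y hy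
    have hopen : IsOpen {z : E | T.starProjection z ∉ K} :=
      hK.isClosed.isOpen_compl.preimage T.starProjection.continuous
    have h1 : Φ =ᶠ[𝓝 y] fun _ => (0 : ℝ) := by
      filter_upwards [hopen.mem_nhds hy] with z hz
      exact hK0 z hz
    have h2 : fderiv ℝ Φ =ᶠ[𝓝 y] fun _ => (0 : E →L[ℝ] ℝ) := by
      filter_upwards [h1.eventuallyEq_nhds] with z hz
      rw [hz.fderiv_eq]; simp
    rw [lap, h2.fderiv_eq]
    simp
  have hSm := measurableSet_cylSet T z R
  -- vector integrability from components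
  have vint : ∀ {f : E → E}, (∀ a : E, Integrable (fun y => ⟪a, f y⟫) ν) → Integrable f ν := by
    intro f hf
    have h2 := integrable_finset_sum Finset.univ fun k (_ : k ∈ Finset.univ) =>
      (hf (stdOrthonormalBasis ℝ E k)).smul_const (stdOrthonormalBasis ℝ E k)
    refine h2.congr (Eventually.of_forall fun y => ?_)
    exact (stdOrthonormalBasis ℝ E).sum_repr' _
  have i1 : Integrable (fun y => (lap Φ (P y) y) • rel T w y) ν := vint fun a => by
    refine H.cyl.integrable_gen (Φ := fun q => ⟪a, (lap Φ q.1 q.2) • rel T w q.2⟫) ?_ hK hKG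
      fun B y hy => by simp [hlap0 B y hy]
    exact continuous_const.inner ((continuous_lap hΦ).smul
      (H.ref.contDiff_rel.continuous.comp continuous_snd))
  have i1' : Integrable (fun y => (lap Φ T.starProjection y) • rel T w y) ν := vint fun a => by
    refine H.cyl.integrable_gen (Φ := fun q => ⟪a, (lap Φ T.starProjection q.2) • rel T w q.2⟫) ?_
      hK hKG fun B y hy => by simp [hlap0 _ y hy]
    exact continuous_const.inner (((continuous_lap hΦ).comp
      (continuous_const.prodMk continuous_snd)).smul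
      (H.ref.contDiff_rel.continuous.comp continuous_snd))
  have i2 : Integrable (fun y => Φ y • lap w (P y) y) ν := vint fun a => by
    refine H.cyl.integrable_gen (Φ := fun q => ⟪a, Φ q.2 • lap w q.1 q.2⟫) ?_ hK hKG
      fun B y hy => by simp [hK0 y hy]
    exact continuous_const.inner ((hΦ.continuous.comp continuous_snd).smul (continuous_lap H.ref.c2))
  have hw := weak_rel H.cyl H.ref hΦ hb
  -- restrict to the cylinder
  have r0 : ∫ y in cylSet T z R, (lap Φ T.starProjection y) • rel T w y ∂ν =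
      ∫ y, (lap Φ T.starProjection y) • rel T w y ∂ν := by
    refine setIntegral_eq_integral_of_forall_compl_eq_zero fun y hy => ?_
    rw [hlap0 _ y fun h => hy (hKG h), zero_smul]
  have hsplit : ∫ y, (lap Φ T.starProjection y) • rel T w y ∂ν =
      ∫ y, (lap Φ T.starProjection y - lap Φ (P y) y) • rel T w y ∂ν -
        ∫ y, Φ y • lap w (P y) y ∂ν := by
    have e1 : ∀ y, (lap Φ T.starProjection y - lap Φ (P y) y) • rel T w y =
        (lap Φ T.starProjection y) • rel T w y - (lap Φ (P y) y) • rel T w y := fun y => sub_smul _ _ _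
    simp only [e1]
    rw [integral_sub i1' i1, hw]
    abel
  have r1 : ∫ y, (lap Φ T.starProjection y - lap Φ (P y) y) • rel T w y ∂ν =
      ∫ y in cylSet T z R, (lap Φ T.starProjection y - lap Φ (P y) y) • rel T w y ∂ν := by
    refine (setIntegral_eq_integral_of_forall_compl_eq_zero fun y hy => ?_).symm
    rw [hlap0 _ y fun h => hy (hKG h), hlap0 _ y fun h => hy (hKG h)]
    simp
  have r2 : ∫ y, Φ y • lap w (P y) y ∂ν = ∫ y in cylSet T z R, Φ y • lap w (P y) y ∂ν := by
    refine (setIntegral_eq_integral_of_forall_compl_eq_zero fun y hy => ?_).symm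
    rw [hK0 y fun h => hy (hKG h), zero_smul]
  rw [r0, hsplit, r1, r2]
  have ig := H.integrable_gsq
  have isq := H.integrable_sqrt
  have hlam := H.lam0
  have hκ := H.κ0
  have hM := H.M0
  -- first term
  have t1 : ‖∫ y in cylSet T z R, (lap Φ T.starProjection y - lap Φ (P y) y) • rel T w y ∂ν‖ ≤
      ∫ y in cylSet T z R, b2 * (lam * R) *
        (4 * gsq (rel T w) (P y) y + 4 * κ ^ 2 * m) ∂ν := by
    refine norm_integral_le_of_norm_le
      (((ig.const_mul 4).add (integrable_const _)).const_mul _) ?_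
    rw [ae_restrict_iff' hSm]
    filter_upwards [H.cyl.proj, H.sup] with y hy hsup hyc
    obtain ⟨S, hS, hP⟩ := hy
    rw [hP, norm_smul, Real.norm_eq_abs, abs_sub_comm]
    have a1 := abs_lap_sub_le hΦ hbase (S := S) (by rw [hS, H.cyl.dimT]) y
    have a2 := tilt_le_ew (H.ref.slope y) S
    rw [← H.ref.gsq_eq_ew, hS] at a2
    have a3 := H.k1 y hyc
    have a4 : ‖fderiv ℝ w y‖ ^ 2 ≤ κ ^ 2 := by gcongr
    have a5 : tilt T S.starProjection ≤ 2 * gsq (rel T w) S.starProjection y + 2 * κ ^ 2 * m := by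
      refine a2.trans ?_
      gcongr
    have a6 := hsup hyc
    have a7 : 0 ≤ tilt T S.starProjection := tilt_nonneg S T
    calc |lap Φ S.starProjection y - lap Φ T.starProjection y| * ‖rel T w y‖
        ≤ (b2 * (2 * tilt T S.starProjection)) * (lam * R) := by
          refine mul_le_mul (a1.trans ?_) a6 (norm_nonneg _) (by positivity)
          gcongr
          exact h2 y
      _ ≤ (b2 * (2 * (2 * gsq (rel T w) S.starProjection y + 2 * κ ^ 2 * m))) * (lam * R) := by
          gcongr
      _ = _ := by ring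
  have t1' : ∫ y in cylSet T z R, b2 * (lam * R) *
        (4 * gsq (rel T w) (P y) y + 4 * κ ^ 2 * m) ∂ν ≤
      b2 * (lam * R) * (4 * (lam ^ 2 * R ^ m) + 4 * κ ^ 2 * m * (M * R ^ m)) := by
    rw [integral_const_mul, integral_add (ig.const_mul 4) (integrable_const _), integral_const_mul,
      integral_const]
    simp only [measureReal_restrict_apply_univ, smul_eq_mul]
    have := H.en
    have := H.mass
    have e : ν.real (cylSet T z R) * (4 * κ ^ 2 * m) = 4 * κ ^ 2 * m * ν.real (cylSet T z R) := by ring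
    rw [e]
    gcongr
  -- second term
  have t2 : ‖∫ y in cylSet T z R, Φ y • lap w (P y) y ∂ν‖ ≤
      ∫ y in cylSet T z R, b0 * (κ / R) *
        (2 * gsq (rel T w) (P y) y + 2 * κ * √m * √(gsq (rel T w) (P y) y)) ∂ν := by
    refine norm_integral_le_of_norm_le
      (((ig.const_mul 2).add (isq.const_mul _)).const_mul _) ?_
    rw [ae_restrict_iff' hSm]
    filter_upwards [H.cyl.proj] with y hy hyc
    obtain ⟨S, hS, hP⟩ := hy
    rw [hP, norm_smul, Real.norm_eq_abs]
    have a1 := norm_lap_le H.ref hS H.cyl.dimT (H.exact y hyc)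
    have a2 := H.k1 y hyc
    have a3 : ‖fderiv ℝ (fderiv ℝ w) y‖ ≤ κ / R := by
      rw [le_div_iff₀ hR, mul_comm]; exact H.k2 y hyc
    have a4 := gsq_nonneg (rel T w) S y
    calc |Φ y| * ‖lap w S.starProjection y‖ ≤ b0 * ((κ / R) *
          (2 * gsq (rel T w) S.starProjection y +
            2 * κ * (√m * √(gsq (rel T w) S.starProjection y)))) := by
          refine mul_le_mul (h0 y) (a1.trans ?_) (norm_nonneg _) hb00
          gcongr
      _ = _ := by ring
  have t2' : ∫ y in cylSet T z R, b0 * (κ / R) *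
        (2 * gsq (rel T w) (P y) y + 2 * κ * √m * √(gsq (rel T w) (P y) y)) ∂ν ≤
      b0 * (κ / R) * (2 * (lam ^ 2 * R ^ m) + 2 * κ * √m * (lam * √M * R ^ m)) := by
    rw [integral_const_mul, integral_add (ig.const_mul 2) (isq.const_mul _), integral_const_mul,
      integral_const_mul]
    have := H.en
    have := H.integral_sqrt_le
    gcongr
  have hsm : √(m : ℝ) ≤ 1 + m := by
    rw [Real.sqrt_le_left (by positivity)]; nlinarith [(Nat.cast_nonneg m : (0 : ℝ) ≤ m)]
  have hsM : √M ≤ 1 + M := by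
    rw [Real.sqrt_le_left (by positivity)]; nlinarith
  have hm0 : (0 : ℝ) ≤ m := Nat.cast_nonneg m
  have hprod : √(m : ℝ) * √M ≤ (1 + m) * (1 + M) := by gcongr
  calc ‖_‖ ≤ b2 * (lam * R) * (4 * (lam ^ 2 * R ^ m) + 4 * κ ^ 2 * m * (M * R ^ m)) +
        b0 * (κ / R) * (2 * (lam ^ 2 * R ^ m) + 2 * κ * √m * (lam * √M * R ^ m)) :=
        (norm_sub_le _ _).trans (add_le_add (t1.trans t1') (t2.trans t2'))
    _ ≤ b2 * (lam * R) * ((4 * (1 + m) * (1 + M)) * (κ + lam) ^ 2 * R ^ m) +
        b0 * (1 / R) * ((4 * (1 + m) * (1 + M)) * lam * (κ + lam) ^ 2 * R ^ m) := by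
        have c1 : 4 * (lam ^ 2 * R ^ m) + 4 * κ ^ 2 * m * (M * R ^ m) ≤
            (4 * (1 + m) * (1 + M)) * (κ + lam) ^ 2 * R ^ m := by
          have : 4 * lam ^ 2 + 4 * κ ^ 2 * m * M ≤ (4 * (1 + m) * (1 + M)) * (κ + lam) ^ 2 := by
            have e1 : 0 ≤ m * M := by positivity
            have e2 : 0 ≤ κ * lam := by positivity
            have e3 : lam ^ 2 ≤ (κ + lam) ^ 2 := by nlinarith
            have e4 : κ ^ 2 ≤ (κ + lam) ^ 2 := by nlinarith
            have e5 : 0 ≤ (κ + lam) ^ 2 := by positivity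
            nlinarith [mul_le_mul_of_nonneg_left e4 e1, mul_nonneg hm0 e5, mul_nonneg hM e5]
          have hRm : 0 < R ^ m := by positivity
          calc _ = (4 * lam ^ 2 + 4 * κ ^ 2 * m * M) * R ^ m := by ring
            _ ≤ _ := by gcongr
        have c2 : κ * (2 * (lam ^ 2 * R ^ m) + 2 * κ * √m * (lam * √M * R ^ m)) ≤
            (4 * (1 + m) * (1 + M)) * lam * (κ + lam) ^ 2 * R ^ m := by
          have : κ * (2 * lam + 2 * κ * (√m * √M)) ≤ (4 * (1 + m) * (1 + M)) * (κ + lam) ^ 2 := by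
            have e2 : 0 ≤ κ * lam := by positivity
            have e1 : 0 ≤ m * M := by positivity
            have e6 : κ * lam ≤ (κ + lam) ^ 2 := by nlinarith
            have e4 : κ ^ 2 ≤ (κ + lam) ^ 2 := by nlinarith
            have e5 : 0 ≤ (κ + lam) ^ 2 := by positivity
            have e7 : κ ^ 2 * (√m * √M) ≤ (κ + lam) ^ 2 * ((1 + m) * (1 + M)) := by gcongr
            nlinarith [mul_nonneg hm0 e5, mul_nonneg hM e5, mul_nonneg e1 e5]
          have hRm : 0 < R ^ m := by positivity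
          calc _ = (κ * (2 * lam + 2 * κ * (√m * √M))) * (lam * R ^ m) := by ring
            _ ≤ ((4 * (1 + m) * (1 + M)) * (κ + lam) ^ 2) * (lam * R ^ m) := by gcongr
            _ = _ := by ring
        have c3 : b0 * (κ / R) * (2 * (lam ^ 2 * R ^ m) + 2 * κ * √m * (lam * √M * R ^ m)) =
            b0 * (1 / R) * (κ * (2 * (lam ^ 2 * R ^ m) + 2 * κ * √m * (lam * √M * R ^ m))) := by
          ring
        rw [c3]
        gcongr
    _ = _ := final_alg hR.ne' _ _ _ _ _ _

end KHyp

end Vale.Agent.P214.KMS
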