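import Vale.Agent.P214.KMS.Ext

/-!
# P214, block KMS: the value of the relative height at a point against its kernel mean
(TXT-WIN-1, item (7)).
-/

open Set Filter Topology MeasureTheory Metric
open scoped RealInnerProductSpace ContDiff

set_option linter.all false

namespace Vale.Agent.P214.KMS

open Vale.Agent.P214.FV Vale.Agent.P214.Skel Vale.Agent.P214.ODE

/-- Cauchy-Schwarz for `∫ √f` -/
lemma integral_sqrt_le_sqrt {α : Type*} [MeasurableSpace α] {μ : Measure α} [IsFiniteMeasure μ]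
    {f : α → ℝ} (hf : Integrable f μ) (h0 : ∀ᵐ y ∂μ, 0 ≤ f y) :
    ∫ y, √(f y) ∂μ ≤ √(μ.real univ * ∫ y, f y ∂μ) := by
  have i2 : Integrable (fun y => √(f y)) μ := by
    refine Integrable.mono' ((integrable_const 1).add hf)
      (Real.continuous_sqrt.comp_aestronglyMeasurable hf.aestronglyMeasurable) ?_
    filter_upwards [h0] with y hy
    rw [Real.norm_eq_abs, abs_of_nonneg (Real.sqrt_nonneg _)]
    show √(f y) ≤ 1 + f y
    rw [Real.sqrt_le_left (by linarith)]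
    nlinarith
  set J := ∫ y, √(f y) ∂μ with hJ
  set I := ∫ y, f y ∂μ with hI
  set N := μ.real univ with hN
  have hJ0 : 0 ≤ J := integral_nonneg fun y => Real.sqrt_nonneg _
  have key : ∀ s : ℝ, 0 ≤ N * (s * s) + (-(2 * J)) * s + I := by
    intro s
    have h1 : ∫ y, (s - √(f y)) ^ 2 ∂μ = N * (s * s) + (-(2 * J)) * s + I := by
      have : ∀ᵐ y ∂μ, (s - √(f y)) ^ 2 = s * s - 2 * s * √(f y) + f y := by
        filter_upwards [h0] with y hy
        have := Real.sq_sqrt hy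
        nlinarith
      have ia : Integrable (fun y => s * s - 2 * s * √(f y)) μ :=
        (integrable_const _).sub (i2.const_mul _)
      rw [integral_congr_ae this, integral_add ia hf,
        integral_sub (integrable_const _) (i2.const_mul _), integral_const, integral_const_mul]
      simp only [smul_eq_mul]
      ring
    rw [← h1]
    exact integral_nonneg fun y => sq_nonneg _
  have hd := discrim_le_zero key
  rw [discrim] at hd
  refine Real.le_sqrt_of_sq_le ?_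
  nlinarith

variable {E : Type*} [NormedAddCommGroup E] [InnerProductSpace ℝ E] [FiniteDimensional ℝ E]
  [MeasurableSpace E] [BorelSpace E]

/-- hypotheses at a point `x1` of the base, scales `[t1, ρ]` -/
structure PHyp (m : ℕ) (T : Submodule ℝ E) (G : Set E) (h : ℝ) (ν : Measure E)
    (P : E → E →L[ℝ] E) (w : E → E) (x1 : E) (t1 ρ Λ ε M : ℝ) : Prop where
  cyl : CylStat m T G h ν P
  ref : Ref T w
  mem : x1 ∈ T
  t1pos : 0 < t1
  t1le : t1 ≤ ρ
  ρle : ρ ≤ 1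
  sub : ball x1 (2 * ρ) ⊆ G
  exact : ∀ y, T.starProjection y ∈ ball x1 (2 * ρ) →
    lap w (gpl T (fderiv ℝ w y)).starProjection y = 0
  k1 : ∀ y, T.starProjection y ∈ ball x1 (2 * ρ) → ‖fderiv ℝ w y‖ ≤ 1
  k2 : ∀ y, T.starProjection y ∈ ball x1 (2 * ρ) → ‖fderiv ℝ (fderiv ℝ w) y‖ ≤ 1
  Λ0 : 0 ≤ Λ
  sup : ∀ᵐ y ∂ν, T.starProjection y ∈ ball x1 (2 * ρ) → ‖rel T w y‖ ≤ Λ
  ε0 : 0 ≤ ε
  ε1 : ε ≤ 1
  en : ∀ t ∈ Icc t1 ρ, ∫ y in cylSet T x1 t, gsq (rel T w) (P y) y ∂ν ≤ ε * t ^ m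
  M0 : 0 ≤ M
  mass : ∀ t ∈ Icc t1 ρ, ν.real (cylSet T x1 t) ≤ M * t ^ m

variable {m : ℕ} {T : Submodule ℝ E} {G : Set E} {h : ℝ} {ν : Measure E} {P : E → E →L[ℝ] E}
  {w : E → E} {x1 : E} {t1 ρ Λ ε M : ℝ} {k k' K : ℝ → ℝ}

namespace PHyp

variable (H : PHyp m T G h ν P w x1 t1 ρ Λ ε M)

include H

lemma ρpos : 0 < ρ := H.t1pos.trans_le H.t1le

lemma gsq_bdd : ∀ᵐ y ∂ν, T.starProjection y ∈ ball x1 (2 * ρ) →
    0 ≤ gsq (rel T w) (P y) y ∧ gsq (rel T w) (P y) y ≤ 4 * m := by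
  filter_upwards [H.cyl.proj] with y hy hyc
  obtain ⟨S, hS, hP⟩ := hy
  rw [hP]
  refine ⟨gsq_nonneg _ _ _, ?_⟩
  rw [H.ref.gsq_eq_ew]
  refine (ew_le T _ S).trans ?_
  rw [hS]
  have := H.k1 y hyc
  have h1 : (1 + ‖fderiv ℝ w y‖) ^ 2 ≤ 4 := by
    have h0 := norm_nonneg (fderiv ℝ w y)
    nlinarith
  have hm : (0 : ℝ) ≤ m := Nat.cast_nonneg m
  nlinarith

lemma integrableOn_gsq {t : ℝ} (ht : t ≤ 2 * ρ) :
    Integrable (fun y => gsq (rel T w) (P y) y) (ν.restrict (cylSet T x1 t)) := by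
  have := H.cyl.fin
  refine Integrable.mono' (integrable_const (4 * (m : ℝ))) ?_ ?_
  · exact (H.cyl.aesm (continuous_gsq (H.ref.contDiff_rel.of_le (by simp)))).restrict
  · rw [ae_restrict_iff' (measurableSet_cylSet T x1 t)]
    filter_upwards [H.gsq_bdd] with y hy hyc
    have h1 := hy (ball_subset_ball ht hyc)
    rw [Real.norm_eq_abs, abs_of_nonneg h1.1]
    exact h1.2

lemma gsq_nonneg_on {t : ℝ} (ht : t ≤ 2 * ρ) :
    ∀ᵐ y ∂(ν.restrict (cylSet T x1 t)), 0 ≤ gsq (rel T w) (P y) y := by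
  rw [ae_restrict_iff' (measurableSet_cylSet T x1 t)]
  filter_upwards [H.gsq_bdd] with y hy hyc
  exact (hy (ball_subset_ball ht hyc)).1

lemma integrableOn_sqrt {t : ℝ} (ht : t ≤ 2 * ρ) :
    Integrable (fun y => √(gsq (rel T w) (P y) y)) (ν.restrict (cylSet T x1 t)) := by
  have := H.cyl.fin
  refine Integrable.mono' ((integrable_const 1).add (H.integrableOn_gsq ht))
    (Real.continuous_sqrt.comp_aestronglyMeasurable (H.integrableOn_gsq ht).aestronglyMeasurable) ?_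
  filter_upwards [H.gsq_nonneg_on ht] with y hy
  rw [Real.norm_eq_abs, abs_of_nonneg (Real.sqrt_nonneg _)]
  show √(gsq (rel T w) (P y) y) ≤ 1 + gsq (rel T w) (P y) y
  rw [Real.sqrt_le_left (by linarith)]
  nlinarith

lemma integral_sqrt_le {t : ℝ} (ht : t ∈ Icc t1 ρ) :
    ∫ y in cylSet T x1 t, √(gsq (rel T w) (P y) y) ∂ν ≤ √M * √ε * t ^ m := by
  have := H.cyl.fin
  have hρ := H.ρpos
  have ht2 : t ≤ 2 * ρ := by linarith [ht.2]
  have ht0 : 0 < t := H.t1pos.trans_le ht.1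
  refine (integral_sqrt_le_sqrt (H.integrableOn_gsq ht2) (H.gsq_nonneg_on ht2)).trans ?_
  rw [measureReal_restrict_apply_univ]
  have h1 : √M * √ε * t ^ m = √((M * t ^ m) * (ε * t ^ m)) := by
    rw [show (M * t ^ m) * (ε * t ^ m) = M * ε * (t ^ m) ^ 2 by ring, Real.sqrt_mul (mul_nonneg H.M0 H.ε0),
      Real.sqrt_mul H.M0, Real.sqrt_sq (by positivity)]
  rw [h1]
  refine Real.sqrt_le_sqrt ?_
  have h2 := H.mass t ht
  have h3 := H.en t ht
  have h4 : 0 ≤ ∫ y in cylSet T x1 t, gsq (rel T w) (P y) y ∂ν :=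
    integral_nonneg_of_ae (H.gsq_nonneg_on ht2)
  have h5 : 0 ≤ M * t ^ m := mul_nonneg H.M0 (by positivity)
  exact mul_le_mul h2 h3 h4 h5

lemma baseCpt_ker (hk : Kern k k' K) {t : ℝ} (ht : t ∈ Icc t1 ρ) :
    BaseCpt T G (ker T w x1 K t) := by
  have ht0 : 0 < t := H.t1pos.trans_le ht.1
  have hρ := H.ρpos
  refine ⟨closedBall x1 t, isCompact_closedBall _ _, ?_, ?_⟩
  · exact (closedBall_subset_ball (by linarith [ht.2])).trans H.sub
  · intro y hy
    refine ker_zero H.ref H.mem hk.pK ht0 ?_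
    rw [mem_closedBall, dist_eq_norm, not_le] at hy
    exact hy.le

/-- pointwise bound of the error integrand -/
lemma pointwise {e : E} (hk : Kern k k' K) {C0 : ℝ} (hC0 : 0 ≤ C0)
    (hb : ∀ s, 0 ≤ s → |k s| ≤ C0 ∧ |k' s| ≤ C0 ∧ |K s| ≤ C0) {t : ℝ} (ht : t ∈ Icc t1 ρ) :
    ∀ᵐ y ∂ν, y ∈ cylSet T x1 t →
      |((((-m : ℤ) : ℝ)) * k (‖xi T w x1 y‖ ^ 2 / t ^ 2) -
          2 * (‖xi T w x1 y‖ ^ 2 / t ^ 2) * k' (‖xi T w x1 y‖ ^ 2 / t ^ 2) -
          t ^ 2 * lap (ker T w x1 K t) (P y) y) * ⟪e, rel T w y⟫ -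
        t ^ 2 * ker T w x1 K t y * ⟪e, lap w (P y) y⟫| ≤
      ‖e‖ * C0 * ((13 * Λ + t ^ 2) * (2 * gsq (rel T w) (P y) y +
        2 * (√m * √(gsq (rel T w) (P y) y))) + 2 * t ^ 2 * Λ) := by
  have ht0 : 0 < t := H.t1pos.trans_le ht.1
  have ht1 : t ≤ 1 := ht.2.trans H.ρle
  have hρ := H.ρpos
  filter_upwards [H.cyl.proj, H.sup] with y hy hsup hyc
  obtain ⟨S, hS, hP⟩ := hy
  have hyc2 : T.starProjection y ∈ ball x1 (2 * ρ) := ball_subset_ball (by linarith [ht.2]) hyc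
  have hv := hsup hyc2
  rw [hP]
  have hex := H.exact y hyc2
  have hκ1 := H.k1 y hyc2
  have hκ2 := H.k2 y hyc2
  set g := gsq (rel T w) S.starProjection y with hg
  have hg0 : 0 ≤ g := gsq_nonneg _ _ _
  set ξ := xi T w x1 y with hξ
  set s := ‖ξ‖ ^ 2 / t ^ 2 with hs
  have hs0 : 0 ≤ s := by positivity
  obtain ⟨hbk, hbk', hbK⟩ := hb s hs0
  set R := gpl T (fderiv ℝ w y) with hR
  have hlapR := lap_ker (x1 := x1) H.ref H.cyl.dimT hk ht0 hex
  rw [← hR, ← hξ, ← hs] at hlapR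
  -- `‖ξ‖ ≤ t` where `k, k' ≠ 0`
  have hsup_k : k s ≠ 0 ∨ k' s ≠ 0 → ‖ξ‖ ≤ t := by
    intro h1
    by_contra h2
    rw [not_le] at h2
    have h3 : 1 ≤ s := by
      rw [hs, one_le_div (by positivity)]; gcongr
    rcases h1 with h1 | h1
    · exact h1 (hk.pk.zero s h3)
    · exact h1 (hk.pk.zero' h3)
  -- second derivative bound
  have hD2 : t ^ 2 * ‖fderiv ℝ (fderiv ℝ (ker T w x1 K t)) y‖ ≤ 13 * C0 := by
    have h1 : ‖fderiv ℝ (fderiv ℝ (ker T w x1 K t)) y‖ ≤ 13 * C0 / t ^ 2 := by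
      refine ContinuousLinearMap.opNorm_le_bound _ (by positivity) fun u => ?_
      refine ContinuousLinearMap.opNorm_le_bound _ (by positivity) fun v => ?_
      rw [fderiv_fderiv_ker H.ref hk ht0, ← hξ, ← hs]
      have gu : ‖gam T w y u‖ ≤ 2 * ‖u‖ := (norm_gam_le T w y u).trans (by gcongr; linarith)
      have gv : ‖gam T w y v‖ ≤ 2 * ‖v‖ := (norm_gam_le T w y v).trans (by gcongr; linarith)
      have d2 : ‖fderiv ℝ (fderiv ℝ w) y u v‖ ≤ 1 * ‖u‖ * ‖v‖ :=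
        (ContinuousLinearMap.le_opNorm₂ _ u v).trans (by gcongr)
      have a1 : |4 * (-(k' s) / (2 * t ^ 4)) * (⟪ξ, gam T w y u⟫ * ⟪ξ, gam T w y v⟫)| ≤
          8 * C0 / t ^ 2 * (‖u‖ * ‖v‖) := by
        by_cases hz : k' s = 0
        · rw [hz]; simp; positivity
        have hxt := hsup_k (Or.inr hz)
        have b1 : |⟪ξ, gam T w y u⟫| ≤ t * (2 * ‖u‖) :=
          (abs_real_inner_le_norm _ _).trans (by gcongr)
        have b2 : |⟪ξ, gam T w y v⟫| ≤ t * (2 * ‖v‖) :=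
          (abs_real_inner_le_norm _ _).trans (by gcongr)
        rw [abs_mul, abs_mul ⟪ξ, gam T w y u⟫]
        have b3 : |4 * (-(k' s) / (2 * t ^ 4))| ≤ 2 * C0 / t ^ 4 := by
          rw [abs_mul, abs_div, abs_neg, abs_of_pos (by positivity : (0:ℝ) < 2 * t ^ 4),
            abs_of_pos (by norm_num : (0:ℝ) < 4)]
          calc 4 * (|k' s| / (2 * t ^ 4)) ≤ 4 * (C0 / (2 * t ^ 4)) := by gcongr
            _ = 2 * C0 / t ^ 4 := by ring
        calc _ ≤ 2 * C0 / t ^ 4 * ((t * (2 * ‖u‖)) * (t * (2 * ‖v‖))) := by gcongr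
          _ = 8 * C0 / t ^ 2 * (‖u‖ * ‖v‖) := by field_simp; ring
      have a2 : |2 * (-(k s) / (2 * t ^ 2)) * (⟪gam T w y u, gam T w y v⟫ +
          ⟪ξ, fderiv ℝ (fderiv ℝ w) y u v⟫)| ≤ 5 * C0 / t ^ 2 * (‖u‖ * ‖v‖) := by
        by_cases hz : k s = 0
        · rw [hz]; simp; positivity
        have hxt := hsup_k (Or.inl hz)
        have b1 : |⟪gam T w y u, gam T w y v⟫| ≤ (2 * ‖u‖) * (2 * ‖v‖) :=
          (abs_real_inner_le_norm _ _).trans (by gcongr)
        have b2 : |⟪ξ, fderiv ℝ (fderiv ℝ w) y u v⟫| ≤ 1 * (1 * ‖u‖ * ‖v‖) :=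
          (abs_real_inner_le_norm _ _).trans (by gcongr; linarith)
        have b3 : |2 * (-(k s) / (2 * t ^ 2))| ≤ C0 / t ^ 2 := by
          rw [abs_mul, abs_div, abs_neg, abs_of_pos (by positivity : (0:ℝ) < 2 * t ^ 2),
            abs_of_pos (by norm_num : (0:ℝ) < 2)]
          calc 2 * (|k s| / (2 * t ^ 2)) ≤ 2 * (C0 / (2 * t ^ 2)) := by gcongr
            _ = C0 / t ^ 2 := by ring
        rw [abs_mul]
        calc _ ≤ C0 / t ^ 2 * ((2 * ‖u‖) * (2 * ‖v‖) + 1 * (1 * ‖u‖ * ‖v‖)) := by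
              gcongr
              exact (abs_add_le _ _).trans (add_le_add b1 b2)
          _ = 5 * C0 / t ^ 2 * (‖u‖ * ‖v‖) := by ring
      rw [Real.norm_eq_abs]
      refine (abs_add_le _ _).trans ((add_le_add a1 a2).trans (le_of_eq ?_))
      ring
    calc t ^ 2 * ‖fderiv ℝ (fderiv ℝ (ker T w x1 K t)) y‖ ≤ t ^ 2 * (13 * C0 / t ^ 2) := by gcongr
      _ = 13 * C0 := by field_simp
  -- comparison of traces
  have hcmp : ‖lap (ker T w x1 K t) S.starProjection y - lap (ker T w x1 K t) R.starProjection y‖ ≤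
      ‖fderiv ℝ (fderiv ℝ (ker T w x1 K t)) y‖ * (2 * g + 2 * (√m * √g)) := by
    have h1 := norm_trb_sub_le (H.ref.slope y) S (by rw [finrank_gpl (H.ref.slope y), hS, H.cyl.dimT])
      (fderiv ℝ (fderiv ℝ (ker T w x1 K t)) y)
      (fun u v => (base_fderiv2 (contDiff_ker H.ref hk t) (ker_base H.ref t) y u v).1)
      (fun u v => (base_fderiv2 (contDiff_ker H.ref hk t) (ker_base H.ref t) y u v).2)
    have h4 := tilt_gpl_le (H.ref.slope y) S
    rw [← H.ref.gsq_eq_ew] at h4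
    have h5 : (Module.finrank ℝ S : ℝ) = m := by rw [hS]
    rw [h5] at h1
    refine h1.trans ?_
    have h6 : 0 ≤ tilt (gpl T (fderiv ℝ w y)) S.starProjection := tilt_nonneg _ _
    have h7 : √(tilt (gpl T (fderiv ℝ w y)) S.starProjection) ≤ √g := Real.sqrt_le_sqrt h4
    have h8 : 2 * ‖fderiv ℝ w y‖ * (√m * √(tilt (gpl T (fderiv ℝ w y)) S.starProjection)) ≤
        2 * (√m * √g) := by
      calc _ ≤ 2 * 1 * (√m * √g) := by gcongr
        _ = _ := by ring
    gcongr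
  have hlapw : ‖lap w S.starProjection y‖ ≤ 2 * g + 2 * (√m * √g) := by
    have h1 := norm_lap_le H.ref hS H.cyl.dimT hex
    refine h1.trans ?_
    calc _ ≤ 1 * (2 * g + 2 * 1 * (√m * √g)) := by gcongr
      _ = _ := by ring
  -- normal component
  have hnor : ‖FV.co R ξ‖ ≤ t ^ 2 := by
    have hTy : T.starProjection y ∈ T := T.starProjection_apply_mem y
    have h1 := norm_co_xi_le (κ2 := 1) H.ref H.mem (y := T.starProjection y) (fun s hs => by
      refine H.k2 _ ?_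
      have : T.starProjection (T.starProjection y + s • (x1 - T.starProjection y)) =
          T.starProjection y + s • (x1 - T.starProjection y) :=
        Submodule.starProjection_eq_self_iff.2
          (T.add_mem hTy (T.smul_mem _ (T.sub_mem H.mem hTy)))
      rw [this, mem_ball, dist_eq_norm]
      have h2 : T.starProjection y + s • (x1 - T.starProjection y) - x1 =
          (1 - s) • (T.starProjection y - x1) := by
        rw [sub_smul, one_smul, smul_sub, smul_sub]; abel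
      rw [h2, norm_smul, Real.norm_eq_abs, abs_of_nonneg (by linarith [hs.2])]
      rw [mem_ball, dist_eq_norm] at hyc2
      calc (1 - s) * ‖T.starProjection y - x1‖ ≤ 1 * ‖T.starProjection y - x1‖ := by
            gcongr; linarith [hs.1]
        _ < 2 * ρ := by linarith) hTy
    rw [← xi_base H.ref, ← base_fderiv' H.ref.diff H.ref.base, ← hR, ← hξ] at h1
    refine h1.trans ?_
    have h2 : ‖T.starProjection y - x1‖ ≤ t := by
      have : T.starProjection y ∈ ball x1 t := hyc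
      rw [mem_ball, dist_eq_norm] at this
      exact this.le
    nlinarith [norm_nonneg (T.starProjection y - x1)]
  -- the algebraic identity
  have hpyth : s = (‖R.starProjection ξ‖ ^ 2 + ‖FV.co R ξ‖ ^ 2) / t ^ 2 := by
    rw [hs, norm_sq_star_add_co R ξ]
  have hid : (((-m : ℤ) : ℝ)) * k s - 2 * s * k' s - t ^ 2 * lap (ker T w x1 K t) S.starProjection y =
      -(t ^ 2 * (lap (ker T w x1 K t) S.starProjection y -
        lap (ker T w x1 K t) R.starProjection y)) - 2 * k' s * (‖FV.co R ξ‖ ^ 2 / t ^ 2) := by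
    rw [hlapR]
    have h1 : s = ‖R.starProjection ξ‖ ^ 2 / t ^ 2 + ‖FV.co R ξ‖ ^ 2 / t ^ 2 := by
      rw [hpyth, add_div]
    generalize k s = a at *
    generalize k' s = c at *
    rw [h1]
    push_cast
    field_simp
    ring
  have hkerb : |ker T w x1 K t y| ≤ C0 := hbK
  have hY : 0 ≤ 2 * g + 2 * (√m * √g) := by positivity
  -- bound of the first bracket
  have hbr : |(((-m : ℤ) : ℝ)) * k s - 2 * s * k' s -
      t ^ 2 * lap (ker T w x1 K t) S.starProjection y| ≤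
      13 * C0 * (2 * g + 2 * (√m * √g)) + 2 * C0 * t ^ 2 := by
    rw [hid]
    refine (abs_sub _ _).trans (add_le_add ?_ ?_)
    · rw [abs_neg, abs_mul, abs_of_nonneg (by positivity : (0 : ℝ) ≤ t ^ 2)]
      calc t ^ 2 * |lap (ker T w x1 K t) S.starProjection y -
            lap (ker T w x1 K t) R.starProjection y|
          ≤ t ^ 2 * (‖fderiv ℝ (fderiv ℝ (ker T w x1 K t)) y‖ * (2 * g + 2 * (√m * √g))) := by
            gcongr
            exact hcmp
        _ = (t ^ 2 * ‖fderiv ℝ (fderiv ℝ (ker T w x1 K t)) y‖) * (2 * g + 2 * (√m * √g)) := by ring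
        _ ≤ _ := by gcongr
    · rw [abs_mul, abs_mul, abs_of_pos (by norm_num : (0:ℝ) < 2),
        abs_of_nonneg (by positivity : (0:ℝ) ≤ ‖FV.co R ξ‖ ^ 2 / t ^ 2)]
      have h1 : ‖FV.co R ξ‖ ^ 2 / t ^ 2 ≤ t ^ 2 := by
        rw [div_le_iff₀ (by positivity)]
        calc ‖FV.co R ξ‖ ^ 2 ≤ (t ^ 2) ^ 2 := by gcongr
          _ = t ^ 2 * t ^ 2 := by ring
      have h2 : 2 * |k' s| * (‖FV.co R ξ‖ ^ 2 / t ^ 2) ≤ 2 * C0 * t ^ 2 := by gcongr
      exact h2
  have hinn : |⟪e, rel T w y⟫| ≤ ‖e‖ * Λ := by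
    refine (abs_real_inner_le_norm _ _).trans ?_
    gcongr
  have hinn2 : |⟪e, lap w S.starProjection y⟫| ≤ ‖e‖ * (2 * g + 2 * (√m * √g)) := by
    refine (abs_real_inner_le_norm _ _).trans ?_
    gcongr
  refine (abs_sub _ _).trans ?_
  rw [abs_mul, abs_mul, abs_mul (t ^ 2), abs_of_nonneg (by positivity : (0 : ℝ) ≤ t ^ 2)]
  calc _ ≤ (13 * C0 * (2 * g + 2 * (√m * √g)) + 2 * C0 * t ^ 2) * (‖e‖ * Λ) +
        t ^ 2 * C0 * (‖e‖ * (2 * g + 2 * (√m * √g))) := by gcongr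
    _ = _ := by ring

end PHyp

end Vale.Agent.P214.KMS
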