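import Vale.Agent.P214.WIN.Props
import Vale.Agent.P214.AVG.Coord
import Vale.Agent.P214.KMS.Sheet

/-!
# P214, block KMS: coordinates of a frame, references in coordinates
-/

open Set Filter Topology MeasureTheory Metric
open scoped RealInnerProductSpace ContDiff

set_option linter.all false

namespace Vale.Agent.P214.KMS

open Vale.Agent.P214.FV Vale.Agent.P214.WIN
open Vale.Agent.P214.REF (pd bs)

variable {E : Type*} [NormedAddCommGroup E] [InnerProductSpace ℝ E] [FiniteDimensional ℝ E]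
variable {m n : ℕ} {T : Submodule ℝ E}

noncomputable section

/-- base coordinates as a continuous linear map -/
def xcL (F : Frame m n T) : E →L[ℝ] REF.E m :=
  (F.bT.repr : T →L[ℝ] REF.E m).comp T.orthogonalProjectionOnto

lemma xcL_apply (F : Frame m n T) (y : E) : xcL F y = F.xc y := rfl

lemma norm_xc (F : Frame m n T) (y : E) : ‖F.xc y‖ = ‖T.starProjection y‖ := by
  unfold Frame.xc
  rw [LinearIsometryEquiv.norm_map]
  rfl

lemma norm_xc_sub (F : Frame m n T) (y z : E) :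
    ‖F.xc y - F.xc z‖ = ‖T.starProjection y - T.starProjection z‖ := by
  rw [← xcL_apply, ← xcL_apply, ← map_sub, xcL_apply, norm_xc, map_sub]

lemma norm_xcL_le (F : Frame m n T) : ‖xcL F‖ ≤ 1 := by
  refine ContinuousLinearMap.opNorm_le_bound _ zero_le_one fun y => ?_
  rw [xcL_apply, norm_xc, one_mul]
  exact norm_star_le T y

lemma xc_star (F : Frame m n T) (y : E) : F.xc (T.starProjection y) = F.xc y := by
  unfold Frame.xc
  congr 1
  ext
  rw [← Submodule.starProjection_apply, ← Submodule.starProjection_apply, star_self]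

lemma up_xc (F : Frame m n T) (y : E) : F.up (F.xc y) = T.starProjection y := by
  unfold Frame.up Frame.xc
  rw [LinearIsometryEquiv.symm_apply_apply]
  rfl

lemma up_mem (F : Frame m n T) (x : REF.E m) : F.up x ∈ T := (F.bT.repr.symm x : T).2

lemma star_up (F : Frame m n T) (x : REF.E m) : T.starProjection (F.up x) = F.up x :=
  Submodule.starProjection_eq_self_iff.2 (up_mem F x)

lemma xc_up (F : Frame m n T) (x : REF.E m) : F.xc (F.up x) = x := by
  unfold Frame.xc Frame.up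
  rw [Submodule.orthogonalProjectionOnto_mem_subspace_eq_self, LinearIsometryEquiv.apply_symm_apply]

/-- the adapted orthonormal basis of `E` -/
def adb (F : Frame m n T) : OrthonormalBasis (Fin m ⊕ Fin n) ℝ E :=
  (F.bT.prod F.bN).map T.orthogonalDecomposition.symm

lemma adb_inl (F : Frame m n T) (i : Fin m) : adb F (Sum.inl i) = ((F.bT i : T) : E) := by
  rw [adb, OrthonormalBasis.map_apply, OrthonormalBasis.prod_apply]
  rw [LinearIsometryEquiv.symm_apply_eq, Submodule.orthogonalDecomposition_apply,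
    Submodule.orthogonalProjectionOnto_orthogonal_apply_eq_zero (F.bT i).2]
  simp

lemma adb_inr (F : Frame m n T) (a : Fin n) : adb F (Sum.inr a) = ((F.bN a : Tᗮ) : E) := by
  rw [adb, OrthonormalBasis.map_apply, OrthonormalBasis.prod_apply]
  rw [LinearIsometryEquiv.symm_apply_eq, Submodule.orthogonalDecomposition_apply,
    Submodule.orthogonalProjectionOnto_eq_zero_iff.2 (F.bN a).2]
  simp

lemma adapted (F : Frame m n T) : AVG.Adapted T (adb F) where
  hT := fun i => by rw [AVG.ev, adb_inl]; exact (F.bT i).2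
  hN := fun a => by rw [AVG.cv, adb_inr]; exact (F.bN a).2

lemma xc_eq (F : Frame m n T) (y : E) : AVG.xc (adb F) y = F.xc y := by
  ext i
  rw [AVG.xc_apply, AVG.ev, adb_inl]
  unfold Frame.xc
  rw [OrthonormalBasis.repr_apply_apply]
  exact (Submodule.inner_orthogonalProjectionOnto_eq_of_mem_left (F.bT i) y).symm

/-! ### the lifted reference -/

variable {F : Frame m n T} {u : Fin n → REF.E m → ℝ}

lemma ref_lift (hu : ∀ a, ContDiff ℝ ∞ (u a)) : Ref T (F.lift u) where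
  smooth := by
    unfold Frame.lift
    refine ContDiff.sum fun a _ => ContDiff.smul ?_ contDiff_const
    exact (hu a).comp (xcL F).contDiff
  base := fun y => by
    unfold Frame.lift
    simp only [xc_star]
  perp := fun y => by
    unfold Frame.lift
    exact Submodule.sum_mem _ fun a _ => Submodule.smul_mem _ _ (F.bN a).2

lemma inner_bN_lift (y : E) (a : Fin n) : ⟪((F.bN a : Tᗮ) : E), F.lift u y⟫ = u a (F.xc y) := by
  unfold Frame.lift
  rw [inner_sum]
  have h1 : ∀ b, ⟪((F.bN a : Tᗮ) : E), u b (F.xc y) • ((F.bN b : Tᗮ) : E)⟫ =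
      if a = b then u b (F.xc y) else 0 := by
    intro b
    rw [inner_smul_right]
    have := orthonormal_iff_ite.1 F.bN.orthonormal a b
    have h2 : ⟪((F.bN a : Tᗮ) : E), ((F.bN b : Tᗮ) : E)⟫ = if a = b then 1 else 0 := this
    rw [h2]
    split_ifs <;> simp
  simp only [h1]
  simp

lemma ht_eq (y : E) (a : Fin n) : F.ht u a y = ⟪((F.bN a : Tᗮ) : E), rel T (F.lift u) y⟫ := by
  unfold Frame.ht rel
  rw [inner_sub_right, inner_bN_lift]
  congr 1
  rw [← inner_co, co_eq, Submodule.starProjection_eq_self_iff.2 (F.bN a).2]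

/-- expansion of a vector of the complement -/
lemma sum_bN (F : Frame m n T) {v : E} (hv : v ∈ Tᗮ) :
    v = ∑ a, ⟪((F.bN a : Tᗮ) : E), v⟫ • ((F.bN a : Tᗮ) : E) := by
  have h1 := (F.bN.sum_repr' ⟨v, hv⟩).symm
  have h2 := congrArg (fun x : Tᗮ => (x : E)) h1
  simpa using h2

lemma inner_rel_eq (hu : ∀ a, ContDiff ℝ ∞ (u a)) (e y : E) :
    ⟪e, rel T (F.lift u) y⟫ = ∑ a, ⟪e, ((F.bN a : Tᗮ) : E)⟫ * F.ht u a y := by
  conv_lhs => rw [sum_bN F ((ref_lift hu).rel_mem y)]
  rw [inner_sum]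
  refine Finset.sum_congr rfl fun a _ => ?_
  rw [inner_smul_right, ht_eq, mul_comm]

lemma norm_bN (F : Frame m n T) (a : Fin n) : ‖((F.bN a : Tᗮ) : E)‖ = 1 := F.bN.orthonormal.1 a

/-- derivatives of the lift -/
lemma norm_iteratedFDeriv_lift_le (hu : ∀ a, ContDiff ℝ ∞ (u a)) (k : ℕ) (y : E) :
    ‖iteratedFDeriv ℝ k (F.lift u) y‖ ≤ ∑ a, ‖iteratedFDeriv ℝ k (u a) (F.xc y)‖ := by
  have h0 : F.lift u = fun y => ∑ a, u a (xcL F y) • ((F.bN a : Tᗮ) : E) := rfl
  rw [h0]
  have hsm : ∀ a, ContDiff ℝ ∞ fun y => u a (xcL F y) := fun a => (hu a).comp (xcL F).contDiff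
  have h1 : iteratedFDeriv ℝ k (fun y => ∑ a, u a (xcL F y) • ((F.bN a : Tᗮ) : E)) y =
      ∑ a, iteratedFDeriv ℝ k (fun y => u a (xcL F y) • ((F.bN a : Tᗮ) : E)) y := by
    have := iteratedFDeriv_sum (𝕜 := ℝ) (i := k) (u := Finset.univ)
      (f := fun a y => u a (xcL F y) • ((F.bN a : Tᗮ) : E)) fun a _ =>
        (((hsm a).smul contDiff_const).of_le (by exact_mod_cast le_top))
    have h2 := congrFun this y
    simpa using h2
  rw [h1]
  refine (norm_sum_le _ _).trans (Finset.sum_le_sum fun a _ => ?_)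
  have h2 : (fun y => u a (xcL F y) • ((F.bN a : Tᗮ) : E)) =
      (ContinuousLinearMap.smulRight (ContinuousLinearMap.id ℝ ℝ) ((F.bN a : Tᗮ) : E)) ∘
        (u a ∘ xcL F) := by
    funext y; simp
  have h3 : ‖ContinuousLinearMap.smulRight (ContinuousLinearMap.id ℝ ℝ) ((F.bN a : Tᗮ) : E)‖ ≤ 1 := by
    rw [ContinuousLinearMap.norm_smulRight_apply, norm_bN, mul_one]
    exact ContinuousLinearMap.norm_id_le
  rw [h2]
  have hcd : ContDiff ℝ k (u a ∘ xcL F) := (hsm a).of_le (by exact_mod_cast le_top)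
  rw [ContinuousLinearMap.iteratedFDeriv_comp_left _ hcd.contDiffAt le_rfl]
  refine (ContinuousLinearMap.norm_compContinuousMultilinearMap_le _ _).trans ?_
  have h4 : ‖iteratedFDeriv ℝ k (u a ∘ xcL F) y‖ ≤ ‖iteratedFDeriv ℝ k (u a) (F.xc y)‖ := by
    rw [ContinuousLinearMap.iteratedFDeriv_comp_right (xcL F)
      ((hu a).of_le (by exact_mod_cast le_top : (k : WithTop ℕ∞) ≤ ∞)) y le_rfl]
    refine (ContinuousMultilinearMap.norm_compContinuousLinearMap_le _ _).trans ?_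
    have : ∏ i : Fin k, ‖xcL F‖ ≤ 1 := Finset.prod_le_one (fun _ _ => norm_nonneg _)
      fun _ _ => norm_xcL_le F
    calc _ ≤ ‖iteratedFDeriv ℝ k (u a) ((xcL F) y)‖ * 1 := by gcongr
      _ = _ := by rw [mul_one]; rfl
  calc _ ≤ 1 * ‖iteratedFDeriv ℝ k (u a) (F.xc y)‖ := by gcongr
    _ = _ := one_mul _

lemma norm_fderiv_lift_le (hu : ∀ a, ContDiff ℝ ∞ (u a)) {ε : ℝ} {x : REF.E m}
    (h : ∀ a, ‖iteratedFDeriv ℝ 1 (u a) x‖ ≤ ε) {y : E} (hy : F.xc y = x) :
    ‖fderiv ℝ (F.lift u) y‖ ≤ n * ε := by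
  have h1 := norm_iteratedFDeriv_lift_le (F := F) hu 1 y
  rw [norm_iteratedFDeriv_one] at h1
  refine h1.trans ?_
  calc _ ≤ ∑ a : Fin n, ε := Finset.sum_le_sum fun a _ => by rw [hy]; exact h a
    _ = n * ε := by simp

lemma norm_fderiv2_lift_le (hu : ∀ a, ContDiff ℝ ∞ (u a)) {ε : ℝ} {x : REF.E m}
    (h : ∀ a, ‖iteratedFDeriv ℝ 2 (u a) x‖ ≤ ε) {y : E} (hy : F.xc y = x) :
    ‖fderiv ℝ (fderiv ℝ (F.lift u)) y‖ ≤ n * ε := by
  have h1 := norm_iteratedFDeriv_lift_le (F := F) hu 2 y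
  have h2 : ‖iteratedFDeriv ℝ 2 (F.lift u) y‖ = ‖fderiv ℝ (fderiv ℝ (F.lift u)) y‖ := by
    rw [show (2 : ℕ) = 1 + 1 by rfl, ← norm_iteratedFDeriv_fderiv, norm_iteratedFDeriv_one]
  rw [← h2]
  refine h1.trans ?_
  calc _ ≤ ∑ a : Fin n, ε := Finset.sum_le_sum fun a _ => by rw [hy]; exact h a
    _ = n * ε := by simp

/-! ### exactness -/

lemma fderiv_lift_apply (hu : ∀ a, ContDiff ℝ ∞ (u a)) (y v : E) :
    fderiv ℝ (F.lift u) y v = ∑ a, fderiv ℝ (u a) (F.xc y) (F.xc v) • ((F.bN a : Tᗮ) : E) := by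
  have h1 : HasFDerivAt (F.lift u) (∑ a, ((fderiv ℝ (u a) (F.xc y)).comp (xcL F)).smulRight
      ((F.bN a : Tᗮ) : E)) y := by
    have h0 : F.lift u = fun y => ∑ a, u a (xcL F y) • ((F.bN a : Tᗮ) : E) := rfl
    rw [h0]
    refine HasFDerivAt.fun_sum fun a _ => ?_
    have h2 : HasFDerivAt (u a) (fderiv ℝ (u a) (xcL F y)) (xcL F y) :=
      ((hu a).differentiable (by simp) _).hasFDerivAt
    exact (h2.comp y (xcL F).hasFDerivAt).smul_const _
  rw [h1.fderiv, ContinuousLinearMap.sum_apply]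
  rfl

/-- the graph plane in coordinates -/
lemma gpl_eq_Sg (hu : ∀ a, ContDiff ℝ ∞ (u a)) (y : E) :
    gpl T (fderiv ℝ (F.lift u) y) = AVG.Sg (adb F) (AVG.dm u (F.xc y)) := by
  have hle : AVG.Sg (adb F) (AVG.dm u (F.xc y)) ≤ gpl T (fderiv ℝ (F.lift u) y) := by
    unfold AVG.Sg
    rw [Submodule.span_le]
    rintro _ ⟨i, rfl⟩
    refine mem_gpl.2 ⟨AVG.ev (adb F) i, (adapted F).hT i, ?_⟩
    rw [AVG.tv, fderiv_lift_apply hu]
    congr 1
    refine Finset.sum_congr rfl fun a _ => ?_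
    rw [AVG.cv, adb_inr]
    congr 1
    rw [← xc_eq F (AVG.ev (adb F) i), AVG.xc_ev]
    rfl
  refine (Submodule.eq_of_le_of_finrank_eq hle ?_).symm
  rw [AVG.finrank_Sg, finrank_gpl ((ref_lift hu).slope y)]
  have := Module.finrank_eq_card_basis F.bT.toBasis
  rw [this]; simp

lemma gmat_eq (u : Fin n → REF.E m → ℝ) (x : REF.E m) : AVG.gmat (AVG.dm u x) = REF.gm u x := by
  ext i j
  simp [AVG.gmat, REF.gm, AVG.dm, Matrix.mul_apply]

/-- components of `lap` -/
lemma inner_lap_lift (hu : ∀ a, ContDiff ℝ ∞ (u a)) (a : Fin n) (R : E →L[ℝ] E) (y : E) :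
    ⟪((F.bN a : Tᗮ) : E), lap (F.lift u) R y⟫ =
      ∑ i, ∑ j, pd i (pd j (u a)) (F.xc y) * ⟪AVG.ev (adb F) i, R (AVG.ev (adb F) j)⟫ := by
  have hr := ref_lift (F := F) hu
  rw [← lap_inner hr.c2]
  have h1 : (fun y => ⟪((F.bN a : Tᗮ) : E), F.lift u y⟫) = fun y => u a (AVG.xc (adb F) y) := by
    funext y
    rw [inner_bN_lift, xc_eq]
  have hua : ContDiff ℝ 2 (u a) := (hu a).of_le two_le_inf
  have h2 : ContDiff ℝ 2 (fun y => u a (AVG.xc (adb F) y)) := hua.comp (AVG.xc (adb F)).contDiff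
  rw [h1, ← hess_eq_lap h2, AVG.hess_comp_xc hua, xc_eq]

/-- **exactness**: zeros of `REF.Mop` are the minimal graphs -/
theorem lap_eq_zero (hu : ∀ a, ContDiff ℝ ∞ (u a)) {y : E} (h : ∀ a, REF.Mop u a (F.xc y) = 0) :
    lap (F.lift u) (gpl T (fderiv ℝ (F.lift u) y)).starProjection y = 0 := by
  have hr := ref_lift (F := F) hu
  have hperp : lap (F.lift u) (gpl T (fderiv ℝ (F.lift u) y)).starProjection y ∈ Tᗮ := by
    -- every second derivative of a `Tᗮ`-valued map is in `Tᗮ`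
    rw [Submodule.mem_orthogonal]
    intro t ht
    rw [← lap_inner hr.c2]
    have h2 : (fun y => ⟪t, F.lift u y⟫) = fun _ => (0 : ℝ) := by
      funext y; exact (Submodule.mem_orthogonal _ _).1 (hr.perp y) t ht
    rw [h2]
    unfold lap
    simp
  rw [sum_bN F hperp]
  refine Finset.sum_eq_zero fun a _ => ?_
  have h3 : ⟪((F.bN a : Tᗮ) : E),
      lap (F.lift u) (gpl T (fderiv ℝ (F.lift u) y)).starProjection y⟫ = 0 := by
    rw [inner_lap_lift hu, gpl_eq_Sg hu]
    simp only [AVG.inner_ev_proj]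
    have h4 := h a
    unfold REF.Mop at h4
    have hdet : (AVG.gmat (AVG.dm u (F.xc y))).det ≠ 0 := (AVG.gmat_posDef _).det_pos.ne'
    have h5 : ∀ i j, AVG.gi (AVG.dm u (F.xc y)) i j =
        ((AVG.gmat (AVG.dm u (F.xc y))).det)⁻¹ * (REF.gm u (F.xc y)).adjugate i j := by
      intro i j
      unfold AVG.gi
      rw [Matrix.inv_def, Matrix.smul_apply, smul_eq_mul, Ring.inverse_eq_inv', gmat_eq]
    simp only [h5]
    calc _ = ((AVG.gmat (AVG.dm u (F.xc y))).det)⁻¹ *
          ∑ i, ∑ j, (REF.gm u (F.xc y)).adjugate i j * pd i (pd j (u a)) (F.xc y) := by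
          rw [Finset.mul_sum]
          refine Finset.sum_congr rfl fun i _ => ?_
          rw [Finset.mul_sum]
          refine Finset.sum_congr rfl fun j _ => ?_
          ring
      _ = 0 := by rw [h4, mul_zero]
  rw [h3, zero_smul]

end

end Vale.Agent.P214.KMS
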