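import Vale.Agent.P214.KMS.Points

/-!
# P214, block KMS: TXT-WIN-1, item (7), conclusion
-/

open Set Filter Topology MeasureTheory Metric
open scoped RealInnerProductSpace ContDiff

set_option linter.all false

namespace Vale.Agent.P214.KMS

open Vale.Agent.P214.FV Vale.Agent.P214.Skel Vale.Agent.P214.ODE

variable {E : Type*} [NormedAddCommGroup E] [InnerProductSpace ℝ E] [FiniteDimensional ℝ E]
  [MeasurableSpace E] [BorelSpace E]
variable {m : ℕ} {T : Submodule ℝ E} {G : Set E} {h : ℝ} {ν : Measure E} {P : E → E →L[ℝ] E}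
  {w : E → E} {x1 : E} {t1 ρ Λ ε M : ℝ} {k k' K : ℝ → ℝ}

/-- scalar form of the weak equation -/
lemma weak_rel_inner (hC : CylStat m T G h ν P) (hw : Ref T w) {Φ : E → ℝ} (hΦ : ContDiff ℝ 2 Φ)
    (hb : BaseCpt T G Φ) (e : E) :
    ∫ y, lap Φ (P y) y * ⟪e, rel T w y⟫ ∂ν = -∫ y, Φ y * ⟪e, lap w (P y) y⟫ ∂ν := by
  have hrel2 : ContDiff ℝ 2 (rel T w) := hw.contDiff_rel.of_le two_le_inf
  have h1 := hC.second hΦ (F := fun y => ⟪e, rel T w y⟫) (contDiff_const.inner ℝ hrel2) hb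
  have e1 : ∀ y, hess (fun y => ⟪e, rel T w y⟫) (P y) y = -⟪e, lap w (P y) y⟫ := fun y => by
    rw [hess_eq_lap (contDiff_const.inner ℝ hrel2), lap_inner hrel2, hw.lap_rel, inner_neg_right]
  simp only [e1, hess_eq_lap hΦ] at h1
  calc ∫ y, lap Φ (P y) y * ⟪e, rel T w y⟫ ∂ν = ∫ y, ⟪e, rel T w y⟫ * lap Φ (P y) y ∂ν := by
        refine integral_congr_ae (Eventually.of_forall fun y => ?_)
        ring
    _ = ∫ y, Φ y * -⟪e, lap w (P y) y⟫ ∂ν := h1.symm
    _ = -∫ y, Φ y * ⟪e, lap w (P y) y⟫ ∂ν := by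
        rw [← integral_neg]
        refine integral_congr_ae (Eventually.of_forall fun y => ?_)
        ring

/-- the kernel mean of a component of the relative height -/
noncomputable def Jk (m : ℕ) (T : Submodule ℝ E) (w : E → E) (x1 : E) (k : ℝ → ℝ) (ν : Measure E)
    (e : E) (t : ℝ) : ℝ := t ^ (-m : ℤ) * ∫ y, ker T w x1 k t y * ⟪e, rel T w y⟫ ∂ν

namespace PHyp

variable (H : PHyp m T G h ν P w x1 t1 ρ Λ ε M)

include H

/-- derivative of the kernel mean, with its bound -/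
lemma deriv_bound (e : E) (hk : Kern k k' K) {C0 : ℝ} (hC0 : 0 ≤ C0)
    (hb : ∀ s, 0 ≤ s → |k s| ≤ C0 ∧ |k' s| ≤ C0 ∧ |K s| ≤ C0) {t : ℝ} (ht : t ∈ Icc t1 ρ) :
    ∃ D, HasDerivAt (Jk m T w x1 k ν e) D t ∧
      |D| ≤ ‖e‖ * (C0 * (26 * (1 + √m * √M) + 2 * M)) *
        (Λ * √ε * t⁻¹ + t * (√ε + Λ)) := by
  have hfin := H.cyl.fin
  have ht0 : 0 < t := H.t1pos.trans_le ht.1
  have ht1 : t ≤ 1 := ht.2.trans H.ρle
  have hρ := H.ρpos
  have hΛ := H.Λ0
  have hM := H.M0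
  set a : E → ℝ := fun y => ‖xi T w x1 y‖ ^ 2 with ha
  set W : E → ℝ := fun y => ⟪e, rel T w y⟫ with hW
  have hac : Continuous a := ((contDiff_xi H.ref).continuous.norm).pow 2
  have hWc : Continuous W := continuous_const.inner H.ref.contDiff_rel.continuous
  have hbd : ∀ᵐ y ∂ν, a y < (2 * ρ) ^ 2 → |W y| ≤ ‖e‖ * Λ := by
    filter_upwards [H.sup] with y hy hay
    have h1 : ‖xi T w x1 y‖ < 2 * ρ := lt_of_pow_lt_pow_left₀ 2 (by positivity) hay
    have h2 : T.starProjection y ∈ ball x1 (2 * ρ) := by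
      rw [mem_ball, dist_eq_norm]
      exact (norm_base_le_xi H.ref H.mem y).trans_lt h1
    refine (abs_real_inner_le_norm _ _).trans ?_
    have := hy h2
    gcongr
  have hder := hasDerivAt_scaled hk.pk (a := a) (w := W) hac.aestronglyMeasurable
    (fun y => by positivity) hWc.aestronglyMeasurable (R := 2 * ρ) (C := ‖e‖ * Λ) hbd ht0
    (by linarith [ht.2]) (-m : ℤ)
  refine ⟨_, hder, ?_⟩
  -- the three integrands
  set f1 : E → ℝ := fun y => (((-m : ℤ) : ℝ) * k (a y / t ^ 2) -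
    2 * (a y / t ^ 2) * k' (a y / t ^ 2)) * W y with hf1
  set f2 : E → ℝ := fun y => lap (ker T w x1 K t) (P y) y * W y with hf2
  set f3 : E → ℝ := fun y => ker T w x1 K t y * ⟪e, lap w (P y) y⟫ with hf3
  have hout : ∀ y, T.starProjection y ∉ ball x1 t → k (a y / t ^ 2) = 0 ∧ k' (a y / t ^ 2) = 0 ∧
      K (a y / t ^ 2) = 0 := by
    intro y hy
    have h1 : 1 ≤ a y / t ^ 2 := by
      rw [one_le_div (by positivity)]
      rw [mem_ball, dist_eq_norm, not_lt] at hy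
      have := hy.trans (norm_base_le_xi H.ref H.mem y)
      show t ^ 2 ≤ ‖xi T w x1 y‖ ^ 2
      gcongr
    exact ⟨hk.pk.zero _ h1, hk.pk.zero' h1, hk.pK.zero _ h1⟩
  have hlap0 : ∀ B y, T.starProjection y ∉ ball x1 t → lap (ker T w x1 K t) B y = 0 := by
    intro B y hy
    obtain ⟨h1, h2, h3⟩ := hout y hy
    simp only [ha] at h1 h2
    unfold lap
    refine Finset.sum_eq_zero fun i _ => ?_
    rw [fderiv_fderiv_ker H.ref hk ht0, h1, h2]
    ring
  have hcl : closedBall x1 t ⊆ G := (closedBall_subset_ball (by linarith [ht.2])).trans H.sub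
  have hcb : ∀ y, T.starProjection y ∉ closedBall x1 t → T.starProjection y ∉ ball x1 t :=
    fun y hy h => hy (ball_subset_closedBall h)
  have i1 : Integrable f1 ν := by
    refine H.cyl.integrable_gen (Φ := fun q => (((-m : ℤ) : ℝ) * k (a q.2 / t ^ 2) -
      2 * (a q.2 / t ^ 2) * k' (a q.2 / t ^ 2)) * W q.2) ?_ (isCompact_closedBall x1 t) hcl
      fun B y hy => ?_
    · have c1 : Continuous fun y : E => a y / t ^ 2 := hac.div_const _
      have c2 := hk.pk.continuous.comp c1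
      have c3 := hk.pk.cont.comp c1
      have c4 : Continuous fun y : E => (((-m : ℤ) : ℝ) * k (a y / t ^ 2) -
          2 * (a y / t ^ 2) * k' (a y / t ^ 2)) * W y :=
        ((continuous_const.mul c2).sub ((continuous_const.mul c1).mul c3)).mul hWc
      exact c4.comp continuous_snd
    · obtain ⟨h1, h2, -⟩ := hout y (hcb y hy)
      simp only [h1, h2]; ring
  have i2 : Integrable f2 ν := by
    refine H.cyl.integrable_gen (Φ := fun q => lap (ker T w x1 K t) q.1 q.2 * W q.2) ?_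
      (isCompact_closedBall x1 t) hcl fun B y hy => by
        simp only [hlap0 B y (hcb y hy)]; ring
    exact (continuous_lap (contDiff_ker H.ref hk t)).mul (hWc.comp continuous_snd)
  have i3 : Integrable f3 ν := by
    refine H.cyl.integrable_gen (Φ := fun q => ker T w x1 K t q.2 * ⟪e, lap w q.1 q.2⟫) ?_
      (isCompact_closedBall x1 t) hcl fun B y hy => ?_
    · exact ((contDiff_ker H.ref hk t).continuous.comp continuous_snd).mul
        (continuous_const.inner (continuous_lap H.ref.c2))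
    · have := (hout y (hcb y hy)).2.2
      simp only [ha] at this
      simp only [ker, this]; ring
  have hweak : ∫ y, f2 y ∂ν = -∫ y, f3 y ∂ν :=
    weak_rel_inner H.cyl H.ref (contDiff_ker H.ref hk t) (H.baseCpt_ker hk ht) e
  have htot : ∫ y, f1 y ∂ν = ∫ y, (f1 y - t ^ 2 * f2 y - t ^ 2 * f3 y) ∂ν := by
    have i12 : Integrable (fun y => f1 y - t ^ 2 * f2 y) ν := i1.sub (i2.const_mul _)
    rw [integral_sub i12 (i3.const_mul _), integral_sub i1 (i2.const_mul _), integral_const_mul,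
      integral_const_mul, hweak]
    ring
  have hres : ∫ y, (f1 y - t ^ 2 * f2 y - t ^ 2 * f3 y) ∂ν =
      ∫ y in cylSet T x1 t, (f1 y - t ^ 2 * f2 y - t ^ 2 * f3 y) ∂ν := by
    refine (setIntegral_eq_integral_of_forall_compl_eq_zero fun y hy => ?_).symm
    have hy' : T.starProjection y ∉ ball x1 t := hy
    obtain ⟨h1, h2, h3⟩ := hout y hy'
    simp only [hf1, hf2, hf3, h1, h2, hlap0 _ y hy']
    simp only [ha] at h3
    simp only [ker, h3]
    ring
  have ht2 : t ≤ 2 * ρ := by linarith [ht.2]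
  have ig := H.integrableOn_gsq ht2
  have isq := H.integrableOn_sqrt ht2
  have hbound : |∫ y in cylSet T x1 t, (f1 y - t ^ 2 * f2 y - t ^ 2 * f3 y) ∂ν| ≤
      ∫ y in cylSet T x1 t, ‖e‖ * C0 * ((13 * Λ + t ^ 2) * (2 * gsq (rel T w) (P y) y +
        2 * √m * √(gsq (rel T w) (P y) y)) + 2 * t ^ 2 * Λ) ∂ν := by
    rw [← Real.norm_eq_abs]
    refine norm_integral_le_of_norm_le ?_ ?_
    · exact ((((ig.const_mul 2).add (isq.const_mul _)).const_mul _).add
        (integrable_const _)).const_mul _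
    · rw [ae_restrict_iff' (measurableSet_cylSet T x1 t)]
      filter_upwards [H.pointwise (e := e) hk hC0 hb ht] with y hy hyc
      rw [Real.norm_eq_abs]
      have h1 := hy hyc
      have h2 : f1 y - t ^ 2 * f2 y - t ^ 2 * f3 y =
          ((((-m : ℤ) : ℝ)) * k (‖xi T w x1 y‖ ^ 2 / t ^ 2) -
            2 * (‖xi T w x1 y‖ ^ 2 / t ^ 2) * k' (‖xi T w x1 y‖ ^ 2 / t ^ 2) -
            t ^ 2 * lap (ker T w x1 K t) (P y) y) * ⟪e, rel T w y⟫ -
          t ^ 2 * ker T w x1 K t y * ⟪e, lap w (P y) y⟫ := by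
        simp only [hf1, hf2, hf3, hW, ha]; ring
      rw [h2]
      refine h1.trans (le_of_eq ?_)
      ring
  have hval : ∫ y in cylSet T x1 t, ‖e‖ * C0 * ((13 * Λ + t ^ 2) * (2 * gsq (rel T w) (P y) y +
        2 * √m * √(gsq (rel T w) (P y) y)) + 2 * t ^ 2 * Λ) ∂ν ≤
      ‖e‖ * C0 * ((13 * Λ + t ^ 2) * (2 * (ε * t ^ m) + 2 * √m * (√M * √ε * t ^ m)) +
        2 * t ^ 2 * Λ * (M * t ^ m)) := by
    have ia : Integrable (fun y => (13 * Λ + t ^ 2) * (2 * gsq (rel T w) (P y) y +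
        2 * √m * √(gsq (rel T w) (P y) y))) (ν.restrict (cylSet T x1 t)) :=
      ((ig.const_mul 2).add (isq.const_mul _)).const_mul _
    rw [integral_const_mul, integral_add ia (integrable_const _), integral_const_mul,
      integral_add (ig.const_mul 2) (isq.const_mul _), integral_const_mul, integral_const_mul,
      integral_const]
    simp only [measureReal_restrict_apply_univ, smul_eq_mul]
    have h1 := H.en t ht
    have h2 := H.integral_sqrt_le ht
    have h3 := H.mass t ht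
    rw [mul_comm (ν.real (cylSet T x1 t)) (2 * t ^ 2 * Λ)]
    gcongr
  have hzp : (t : ℝ) ^ (-m : ℤ) * t ^ m = 1 := by
    rw [zpow_neg, zpow_natCast]
    exact inv_mul_cancel₀ (by positivity)
  have hzp0 : 0 < (t : ℝ) ^ (-m : ℤ) := zpow_pos ht0 _
  have hεs : ε ≤ √ε := by
    rw [Real.le_sqrt H.ε0 H.ε0]
    nlinarith [H.ε0, H.ε1]
  have hgoal : integral ν f1 = ∫ y in cylSet T x1 t, (f1 y - t ^ 2 * f2 y - t ^ 2 * f3 y) ∂ν :=
    htot.trans hres
  rw [hgoal, abs_mul, abs_mul, abs_of_pos (inv_pos.2 ht0), abs_of_pos hzp0]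
  calc t⁻¹ * (t ^ (-m : ℤ) * |∫ y in cylSet T x1 t, (f1 y - t ^ 2 * f2 y - t ^ 2 * f3 y) ∂ν|)
      ≤ t⁻¹ * (t ^ (-m : ℤ) * (‖e‖ * C0 * ((13 * Λ + t ^ 2) * (2 * (ε * t ^ m) +
        2 * √m * (√M * √ε * t ^ m)) + 2 * t ^ 2 * Λ * (M * t ^ m)))) := by
        gcongr
        exact hbound.trans hval
    _ = t⁻¹ * (t ^ (-m : ℤ) * t ^ m) * (‖e‖ * C0 * ((13 * Λ + t ^ 2) * (2 * ε +
        2 * √m * (√M * √ε)) + 2 * t ^ 2 * Λ * M)) := by ring
    _ ≤ t⁻¹ * 1 * (‖e‖ * C0 * ((13 * Λ + t ^ 2) * (2 * √ε +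
        2 * √m * (√M * √ε)) + 2 * t ^ 2 * Λ * M)) := by
        rw [hzp]
        gcongr
    _ ≤ t⁻¹ * 1 * (‖e‖ * C0 * ((26 * (1 + √m * √M) + 2 * M) *
          (Λ * √ε + t ^ 2 * (√ε + Λ)))) := by
        have hm0 : 0 ≤ √(m : ℝ) := Real.sqrt_nonneg _
        have hM0 : 0 ≤ √M := Real.sqrt_nonneg _
        have hε0 : 0 ≤ √ε := Real.sqrt_nonneg _
        have hkey : (13 * Λ + t ^ 2) * (2 * √ε + 2 * √m * (√M * √ε)) + 2 * t ^ 2 * Λ * M ≤
            (26 * (1 + √m * √M) + 2 * M) * (Λ * √ε + t ^ 2 * (√ε + Λ)) := by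
          have p1 : 0 ≤ √(m : ℝ) * √M := by positivity
          have p2 : 0 ≤ t ^ 2 * Λ := by positivity
          have p3 : 0 ≤ t ^ 2 * √ε := by positivity
          have p4 : 0 ≤ Λ * √ε := by positivity
          have e1 : (13 * Λ + t ^ 2) * (2 * √ε + 2 * √m * (√M * √ε)) + 2 * t ^ 2 * Λ * M =
            26 * (1 + √m * √M) * (Λ * √ε) + 2 * (1 + √m * √M) * (t ^ 2 * √ε) +
              2 * M * (t ^ 2 * Λ) := by ring
          have e2 : (26 * (1 + √m * √M) + 2 * M) * (Λ * √ε + t ^ 2 * (√ε + Λ)) =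
            (26 * (1 + √m * √M) + 2 * M) * (Λ * √ε) +
            (26 * (1 + √m * √M) + 2 * M) * (t ^ 2 * √ε) +
            (26 * (1 + √m * √M) + 2 * M) * (t ^ 2 * Λ) := by ring
          rw [e1, e2]
          gcongr
          · linarith
          · linarith
          · linarith
        gcongr
    _ = _ := by
        field_simp

/-- integrated form -/
lemma diff_le (e : E) (hk : Kern k k' K) {C0 : ℝ} (hC0 : 0 ≤ C0)
    (hb : ∀ s, 0 ≤ s → |k s| ≤ C0 ∧ |k' s| ≤ C0 ∧ |K s| ≤ C0) :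
    |Jk m T w x1 k ν e t1| ≤ |Jk m T w x1 k ν e ρ| +
      ‖e‖ * (C0 * (26 * (1 + √m * √M) + 2 * M)) *
        (Λ * √ε * Real.log (ρ / t1) + ρ ^ 2 * (√ε + Λ)) := by
  set C1 := ‖e‖ * (C0 * (26 * (1 + √m * √M) + 2 * M)) with hC1
  have hM := H.M0
  have hC10 : 0 ≤ C1 := by positivity
  have hΛ := H.Λ0
  set J := Jk m T w x1 k ν e with hJ
  set B : ℝ → ℝ := fun t => C1 * (Λ * √ε * Real.log t + t ^ 2 / 2 * (√ε + Λ)) with hB
  have hBd : ∀ t, 0 < t → HasDerivAt B (C1 * (Λ * √ε * t⁻¹ + t * (√ε + Λ))) t := by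
    intro t ht
    have h1 := ((Real.hasDerivAt_log ht.ne').const_mul (Λ * √ε)).add
      (((hasDerivAt_pow 2 t).div_const 2).mul_const (√ε + Λ))
    refine (h1.const_mul C1).congr_deriv ?_
    simp
  have hpos : ∀ t ∈ Icc t1 ρ, 0 < t := fun t ht => H.t1pos.trans_le ht.1
  have hd : ∀ t ∈ Icc t1 ρ, ∃ D, HasDerivAt J D t ∧ |D| ≤ C1 * (Λ * √ε * t⁻¹ + t * (√ε + Λ)) :=
    fun t ht => H.deriv_bound e hk hC0 hb ht
  have hJc : ContinuousOn J (Icc t1 ρ) := fun t ht => by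
    obtain ⟨D, hD, -⟩ := hd t ht
    exact hD.continuousAt.continuousWithinAt
  have hBc : ContinuousOn B (Icc t1 ρ) := fun t ht => (hBd t (hpos t ht)).continuousAt.continuousWithinAt
  have hint : interior (Icc t1 ρ) ⊆ Icc t1 ρ := interior_subset
  have m1 : MonotoneOn (fun t => B t - J t) (Icc t1 ρ) := by
    refine monotoneOn_of_deriv_nonneg (convex_Icc t1 ρ) (hBc.sub hJc) (fun t ht => ?_) fun t ht => ?_
    · obtain ⟨D, hD, -⟩ := hd t (hint ht)
      exact ((hBd t (hpos t (hint ht))).sub hD).differentiableAt.differentiableWithinAt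
    · obtain ⟨D, hD, hDb⟩ := hd t (hint ht)
      have h1 : HasDerivAt (fun t => B t - J t) _ t := (hBd t (hpos t (hint ht))).sub hD
      rw [h1.deriv]
      linarith [le_abs_self D]
  have m2 : MonotoneOn (fun t => B t + J t) (Icc t1 ρ) := by
    refine monotoneOn_of_deriv_nonneg (convex_Icc t1 ρ) (hBc.add hJc) (fun t ht => ?_) fun t ht => ?_
    · obtain ⟨D, hD, -⟩ := hd t (hint ht)
      exact ((hBd t (hpos t (hint ht))).add hD).differentiableAt.differentiableWithinAt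
    · obtain ⟨D, hD, hDb⟩ := hd t (hint ht)
      have h1 : HasDerivAt (fun t => B t + J t) _ t := (hBd t (hpos t (hint ht))).add hD
      rw [h1.deriv]
      linarith [neg_abs_le D]
  have ht1m : t1 ∈ Icc t1 ρ := ⟨le_rfl, H.t1le⟩
  have hρm : ρ ∈ Icc t1 ρ := ⟨H.t1le, le_rfl⟩
  have a1 := m1 ht1m hρm H.t1le
  have a2 := m2 ht1m hρm H.t1le
  simp only at a1 a2
  have hBdiff : B ρ - B t1 ≤ C1 * (Λ * √ε * Real.log (ρ / t1) + ρ ^ 2 * (√ε + Λ)) := by
    simp only [hB]
    rw [← mul_sub, Real.log_div H.ρpos.ne' H.t1pos.ne']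
    refine mul_le_mul_of_nonneg_left ?_ hC10
    have h1 : 0 ≤ √ε + Λ := by positivity
    nlinarith [mul_nonneg (sq_nonneg t1) h1, mul_nonneg (sq_nonneg ρ) h1]
  have h3 : |J t1| ≤ |J ρ| + (B ρ - B t1) := by
    rw [abs_le]
    constructor
    · linarith [neg_abs_le (J ρ)]
    · linarith [le_abs_self (J ρ)]
  linarith

end PHyp

/-- the cone part: value of the relative height at a point `z` against the kernel mean at the
scale of a cone bound -/
theorem cone_le (hC : CylStat m T G h ν P) (hw : Ref T w) (hx1 : x1 ∈ T) (ht0 : 0 < t1)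
    (hcl : closedBall x1 t1 ⊆ G) (hk : Kern k k' K) {z : E} {c c0 X : ℝ} (hc0 : 0 < c0)
    (hcone : ∀ᵐ y ∂ν, T.starProjection y ∈ ball x1 t1 → ‖rel T w y - rel T w z‖ ≤ c)
    (hlow : c0 ≤ t1 ^ (-m : ℤ) * ∫ y, ker T w x1 k t1 y ∂ν)
    (hB : ∀ e : E, ‖e‖ ≤ 1 → |Jk m T w x1 k ν e t1| ≤ X) :
    ‖rel T w z‖ ≤ c + X / c0 := by
  have hfin := hC.fin
  have hX0 : 0 ≤ X := (abs_nonneg _).trans (hB 0 (by simp))
  -- the kernel mass
  set m1 := t1 ^ (-m : ℤ) * ∫ y, ker T w x1 k t1 y ∂ν with hm1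
  have hm1pos : 0 < m1 := hc0.trans_le hlow
  have hker0 : ∀ y, 0 ≤ ker T w x1 k t1 y := fun y => hk.nonneg _
  have hkerc : Continuous (ker T w x1 k t1) :=
    hk.pk.continuous.comp (((contDiff_xi hw).continuous.norm.pow 2).div_const _)
  have hkb : ∀ y, T.starProjection y ∉ ball x1 t1 → ker T w x1 k t1 y = 0 := fun y hy => by
    refine ker_zero hw hx1 hk.pk ht0 ?_
    rw [mem_ball, dist_eq_norm, not_lt] at hy
    exact hy
  have ik : Integrable (ker T w x1 k t1) ν := by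
    refine hC.integrable_gen (Φ := fun q => ker T w x1 k t1 q.2) (hkerc.comp continuous_snd)
      (isCompact_closedBall x1 t1) hcl fun B y hy => hkb y fun h => hy (ball_subset_closedBall h)
  by_cases hz : rel T w z = 0
  · rw [hz, norm_zero]
    have hc : 0 ≤ c := by
      by_contra hcn
      rw [not_le] at hcn
      -- no mass over the ball, contradiction with `hlow`
      have h1 : ∀ᵐ y ∂ν, ker T w x1 k t1 y = 0 := by
        filter_upwards [hcone] with y hy
        refine hkb y fun h => ?_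
        have := hy h
        linarith [norm_nonneg (rel T w y - rel T w z)]
      have h2 : ∫ y, ker T w x1 k t1 y ∂ν = 0 := by
        rw [integral_congr_ae h1]; simp
      rw [hm1, h2, mul_zero] at hm1pos
      exact lt_irrefl _ hm1pos
    positivity
  have hnz : 0 < ‖rel T w z‖ := norm_pos_iff.2 hz
  set e : E := (‖rel T w z‖⁻¹) • rel T w z with he
  have he1 : ‖e‖ = 1 := by
    rw [he, norm_smul, norm_inv, norm_norm, inv_mul_cancel₀ hnz.ne']
  have hez : ⟪e, rel T w z⟫ = ‖rel T w z‖ := by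
    rw [he, inner_smul_left, real_inner_self_eq_norm_sq]
    simp
    field_simp
  have hJρ := hB e he1.le
  -- compare
  have iW : Integrable (fun y => ker T w x1 k t1 y * ⟪e, rel T w y⟫) ν := by
    refine hC.integrable_gen (Φ := fun q => ker T w x1 k t1 q.2 * ⟪e, rel T w q.2⟫) ?_
      (isCompact_closedBall x1 t1) hcl fun B y hy => by
        simp only [hkb y fun h => hy (ball_subset_closedBall h)]; ring
    exact (hkerc.mul (continuous_const.inner hw.contDiff_rel.continuous)).comp continuous_snd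
  have hcmp : ∫ y, ker T w x1 k t1 y * (⟪e, rel T w z⟫ - c) ∂ν ≤
      ∫ y, ker T w x1 k t1 y * ⟪e, rel T w y⟫ ∂ν := by
    refine integral_mono_ae (ik.mul_const _) iW ?_
    filter_upwards [hcone] with y hy
    by_cases hyb : T.starProjection y ∈ ball x1 t1
    · have h1 := hy hyb
      have h2 : ⟪e, rel T w z⟫ - ⟪e, rel T w y⟫ ≤ c := by
        rw [← inner_sub_right]
        refine (real_inner_le_norm _ _).trans ?_
        rw [he1, one_mul, norm_sub_rev]; exact h1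
      exact mul_le_mul_of_nonneg_left (by linarith) (hker0 y)
    · simp only [hkb y hyb, zero_mul]; exact le_rfl
  rw [integral_mul_const, hez] at hcmp
  have hJge : m1 * (‖rel T w z‖ - c) ≤ Jk m T w x1 k ν e t1 := by
    rw [hm1, Jk, mul_assoc]
    exact mul_le_mul_of_nonneg_left hcmp (zpow_pos ht0 _).le
  have hfin2 : m1 * (‖rel T w z‖ - c) ≤ X := by
    calc _ ≤ _ := hJge
      _ ≤ |Jk m T w x1 k ν e t1| := le_abs_self _
      _ ≤ X := hJρ
  by_cases hle : ‖rel T w z‖ ≤ c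
  · have : 0 ≤ X / c0 := by positivity
    linarith
  · rw [not_le] at hle
    have h1 : c0 * (‖rel T w z‖ - c) ≤ X := by
      refine le_trans ?_ hfin2
      have : 0 ≤ ‖rel T w z‖ - c := by linarith
      gcongr
    have h2 : ‖rel T w z‖ - c ≤ X / c0 := by
      rw [le_div_iff₀ hc0]; linarith
    linarith

/-- **POINTS**: value of the relative height at a point `z` over `x1` -/
theorem PHyp.point (H : PHyp m T G h ν P w x1 t1 ρ Λ ε M) (hk : Kern k k' K) {C0 : ℝ}
    (hC0 : 0 ≤ C0) (hb : ∀ s, 0 ≤ s → |k s| ≤ C0 ∧ |k' s| ≤ C0 ∧ |K s| ≤ C0) {z : E} {c c0 B : ℝ}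
    (hc0 : 0 < c0)
    (hcone : ∀ᵐ y ∂ν, T.starProjection y ∈ ball x1 t1 → ‖rel T w y - rel T w z‖ ≤ c)
    (hlow : c0 ≤ t1 ^ (-m : ℤ) * ∫ y, ker T w x1 k t1 y ∂ν)
    (hB : ∀ e : E, ‖e‖ ≤ 1 → |Jk m T w x1 k ν e ρ| ≤ B) :
    ‖rel T w z‖ ≤ c + (B + C0 * (26 * (1 + √m * √M) + 2 * M) *
        (Λ * √ε * Real.log (ρ / t1) + ρ ^ 2 * (√ε + Λ))) / c0 := by
  have hM := H.M0
  have hΛ := H.Λ0
  have hlog : 0 ≤ Real.log (ρ / t1) := Real.log_nonneg (by rw [one_le_div H.t1pos]; exact H.t1le)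
  have hρ := H.ρpos
  refine cone_le H.cyl H.ref H.mem H.t1pos
    ((closedBall_subset_ball (by linarith [H.t1le])).trans H.sub) hk hc0 hcone hlow fun e he => ?_
  refine (H.diff_le e hk hC0 hb).trans ?_
  have h1 := hB e he
  have h2 : ‖e‖ * (C0 * (26 * (1 + √m * √M) + 2 * M)) *
        (Λ * √ε * Real.log (ρ / t1) + ρ ^ 2 * (√ε + Λ)) ≤
      1 * (C0 * (26 * (1 + √m * √M) + 2 * M)) *
        (Λ * √ε * Real.log (ρ / t1) + ρ ^ 2 * (√ε + Λ)) := by gcongr
  linarith

end Vale.Agent.P214.KMS
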