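import Vale.Agent.P214.KMS.Bump
import Vale.Agent.P214.KMS.Points2
import Vale.Agent.P214.BRG.Int

/-!
# P214, block KMS: `WIN.PointsStmt`
-/

open Set Filter Topology MeasureTheory Metric
open scoped RealInnerProductSpace ContDiff

set_option linter.all false

namespace Vale.Agent.P214.KMS

open Vale.Agent.P214 Vale.Agent.P214.FV Vale.Agent.P214.WIN Vale.Agent.P214.ODE

variable {E : Type*} [NormedAddCommGroup E] [InnerProductSpace ℝ E] [FiniteDimensional ℝ E]
  [MeasurableSpace E] [BorelSpace E]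
variable {m n Q : ℕ} {T : Submodule ℝ E} {z : E} {R h δ : ℝ} {ν : Measure E} {P : E → E →L[ℝ] E}

/-- lower density from integrality -/
lemma densLow_of_skel (hI : Skel.IntCyl m Q T z R h δ ν P) :
    DensLow m (T.starProjection ⁻¹' ball z R) ν (cg m) := by
  filter_upwards [hI.int] with y hy hyO c' hc'
  obtain ⟨q, hq, S, -, hS⟩ := hy hyO
  have h2 : (1:ℝ) ≤ q := by exact_mod_cast hq
  have h3 : c' < q * cg m := by have := cg_pos m; nlinarith
  have h4 : ∀ᶠ r in 𝓝[>] (0:ℝ), c' ≤ ratio m ν y r :=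
    ((BRG.tendsto_ratio hS).eventually (lt_mem_nhds h3)).mono fun r hr => hr.le
  exact h4.frequently

/-- lower mass bound at support points -/
lemma le_mass_ball (hI : Skel.IntCyl m Q T z R h δ ν P) {y : E} (hy : y ∈ ν.support) {s : ℝ}
    (hs : 0 < s) (hb : ‖T.starProjection y - z‖ + s < R) : cg m * s ^ m ≤ ν.real (ball y s) := by
  have := hI.cyl.fin
  have hball : closedBall y s ⊆ T.starProjection ⁻¹' ball z R := by
    intro w hw
    rw [mem_closedBall, dist_eq_norm] at hw
    show T.starProjection w ∈ ball z R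
    rw [mem_ball, dist_eq_norm]
    have h1 : T.starProjection w - z = T.starProjection (w - y) + (T.starProjection y - z) := by
      rw [map_sub]; abel
    rw [h1]
    have h2 := norm_add_le (T.starProjection (w - y)) (T.starProjection y - z)
    have h3 := norm_star_le T (w - y)
    linarith
  have h1 := (INT.locStat_of_cylStat hI.cyl).ratio_ge (densLow_of_skel hI) hy hs hball
  have h2 : ratio m ν y s * s ^ m ≤ ν.real (ball y s) := by
    unfold ratio
    rw [div_mul_cancel₀ _ (by positivity)]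
    exact cut_integral_le hs
  refine le_trans ?_ h2
  gcongr

/-- mass of the kernel from below -/
lemma low_ker (hI : Skel.IntCyl m Q T z R h δ ν P) {w : E → E} (hw : Ref T w) {y : E}
    (hy : y ∈ ν.support) {s : ℝ} (hs : 0 < s) (hb : ‖T.starProjection y - z‖ + s < R)
    (hlip : ∀ x, ‖w x - w (T.starProjection y)‖ ≤ ‖T.starProjection x - T.starProjection y‖) :
    cg m / 2 ^ m ≤ s ^ (-m : ℤ) * ∫ x, ker T w (T.starProjection y) sk s x ∂ν := by
  have hfin := hI.cyl.fin
  have h1 : cg m * (s / 2) ^ m ≤ ν.real (ball y (s / 2)) :=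
    le_mass_ball hI hy (by positivity) (by linarith)
  have hkc : Continuous (ker T w (T.starProjection y) sk s) :=
    kern_sk.pk.continuous.comp (((contDiff_xi hw).continuous.norm.pow 2).div_const _)
  have hin : Integrable (ker T w (T.starProjection y) sk s) ν :=
    Integrable.mono' (integrable_const 1) hkc.aestronglyMeasurable (Eventually.of_forall fun x => by
      rw [Real.norm_eq_abs, ker, abs_of_nonneg (sk_nonneg _)]
      exact sk_le_one _)
  have h2 : ν.real (ball y (s / 2)) ≤ ∫ x, ker T w (T.starProjection y) sk s x ∂ν := by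
    have h3 : ν.real (ball y (s / 2)) = ∫ x, (ball y (s / 2)).indicator (fun _ => (1:ℝ)) x ∂ν := by
      rw [integral_indicator measurableSet_ball]; simp
    rw [h3]
    refine integral_mono ((integrable_const _).indicator measurableSet_ball) hin fun x => ?_
    by_cases hx : x ∈ ball y (s / 2)
    · rw [indicator_of_mem hx]
      have h4 : ‖T.starProjection x - T.starProjection y‖ ≤ s / 2 := by
        rw [mem_ball, dist_eq_norm] at hx
        rw [← map_sub]
        exact (norm_star_le T _).trans hx.le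
      have h5 : ‖xi T w (T.starProjection y) x‖ ^ 2 / s ^ 2 ≤ 1 / 2 := by
        rw [norm_sq_xi hw (T.starProjection_apply_mem y), div_le_iff₀ (by positivity)]
        have h6 := hlip x
        have h7 : ‖w x - w (T.starProjection y)‖ ^ 2 ≤ (s / 2) ^ 2 := by
          have := h6.trans h4
          gcongr
        have h8 : ‖T.starProjection x - T.starProjection y‖ ^ 2 ≤ (s / 2) ^ 2 := by gcongr
        nlinarith
      show 1 ≤ sk (‖xi T w (T.starProjection y) x‖ ^ 2 / s ^ 2)
      rw [sk_one h5]
    · rw [indicator_of_notMem hx]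
      exact sk_nonneg _
  have hzp : (s : ℝ) ^ (-m : ℤ) * s ^ m = 1 := by
    rw [zpow_neg, zpow_natCast]
    exact inv_mul_cancel₀ (by positivity)
  have hzp0 : 0 < (s : ℝ) ^ (-m : ℤ) := zpow_pos hs _
  calc cg m / 2 ^ m = s ^ (-m : ℤ) * s ^ m * (cg m / 2 ^ m) := by rw [hzp, one_mul]
    _ = s ^ (-m : ℤ) * (cg m * (s / 2) ^ m) := by rw [div_pow]; ring
    _ ≤ _ := by
        gcongr
        exact h1.trans h2

/-- the kernel mean in coordinates -/
lemma abs_Jk_le {F : Frame m n T} {u : Fin n → REF.E m → ℝ} (hI : Skel.IntCyl m Q T z R h δ ν P)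
    (hu : ∀ a, ContDiff ℝ ∞ (u a)) {z0 : E} {ρ : ℝ} (hρ : 0 < ρ)
    (hb : ‖T.starProjection z0 - z‖ + ρ < R) {e : E} (he : ‖e‖ ≤ 1) :
    |Jk m T (F.lift u) (T.starProjection z0) sk ν e ρ| ≤
      ∑ a, |∫ y, phi u (F.xc z0) ρ (F.xc y) * F.ht u a y ∂ν| := by
  have hfin := hI.cyl.fin
  have hr := ref_lift (F := F) hu
  have hi : ∀ a, Integrable (fun y => phi u (F.xc z0) ρ (F.xc y) * F.ht u a y) ν := by
    intro a
    refine hI.cyl.integrable_gen (Φ := fun q => phi u (F.xc z0) ρ (F.xc q.2) * F.ht u a q.2) ?_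
      (isCompact_closedBall (T.starProjection z0) ρ) ?_ fun B y hy => ?_
    · have c1 : Continuous fun y : E => F.xc y := (xcL F).continuous
      have c2 : Continuous fun y : E => F.ht u a y := by
        unfold Frame.ht
        exact (continuous_const.inner continuous_id).sub ((hu a).continuous.comp c1)
      exact (((contDiff_phi hu _ ρ).continuous.comp c1).mul c2).comp continuous_snd
    · intro x hx
      rw [mem_closedBall] at hx
      rw [mem_ball]
      have := dist_triangle x (T.starProjection z0) z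
      rw [dist_eq_norm (T.starProjection z0)] at this
      linarith
    · simp only
      rw [phi_zero hρ, zero_mul]
      rw [norm_xc_sub]
      rw [mem_closedBall, not_le, dist_eq_norm] at hy
      exact hy.le
  have h1 : Jk m T (F.lift u) (T.starProjection z0) sk ν e ρ =
      ∑ a, ⟪e, ((F.bN a : Tᗮ) : E)⟫ * ∫ y, phi u (F.xc z0) ρ (F.xc y) * F.ht u a y ∂ν := by
    rw [Jk, ← integral_const_mul]
    have : ∀ a, ⟪e, ((F.bN a : Tᗮ) : E)⟫ * ∫ y, phi u (F.xc z0) ρ (F.xc y) * F.ht u a y ∂ν =
        ∫ y, ⟪e, ((F.bN a : Tᗮ) : E)⟫ * (phi u (F.xc z0) ρ (F.xc y) * F.ht u a y) ∂ν := fun a =>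
      (integral_const_mul _ _).symm
    simp only [this]
    rw [← integral_finset_sum _ fun a _ => (hi a).const_mul _]
    refine integral_congr_ae (Eventually.of_forall fun y => ?_)
    simp only
    rw [← mul_assoc, ker_lift hu _ _ hρ, inner_rel_eq hu, Finset.mul_sum]
    refine Finset.sum_congr rfl fun a _ => ?_
    ring
  rw [h1]
  refine (Finset.abs_sum_le_sum_abs _ _).trans (Finset.sum_le_sum fun a _ => ?_)
  rw [abs_mul]
  have h2 : |⟪e, ((F.bN a : Tᗮ) : E)⟫| ≤ 1 := by
    refine (abs_real_inner_le_norm _ _).trans ?_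
    rw [norm_bN, mul_one]; exact he
  calc _ ≤ 1 * |∫ y, phi u (F.xc z0) ρ (F.xc y) * F.ht u a y ∂ν| := by gcongr
    _ = _ := one_mul _

/-- arithmetic of the constants (close scales) -/
lemma arith1 {t M S B C1 c0 : ℝ} (hM : 1 ≤ M) (hC1 : 0 ≤ C1) (hc0 : 0 < c0) (hB : 0 ≤ B)
    (ht : 0 ≤ t) (htS : t ≤ S) (hBS : B ≤ S) :
    2 * t + B / c0 ≤ (2 + (1 + C1) / c0) * M * S := by
  have hS0 : 0 ≤ S := hB.trans hBS
  have a1 : S ≤ M * S := by nlinarith
  have a2 : 0 ≤ C1 * (M * S) := by positivity
  have e6 : B ≤ (1 + C1) * M * S := by nlinarith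
  have e5 : 2 * t ≤ 2 * M * S := by nlinarith
  calc 2 * t + B / c0 ≤ 2 * M * S + ((1 + C1) * M * S) / c0 := by gcongr
    _ = (2 + (1 + C1) / c0) * M * S := by ring

/-- arithmetic of the constants -/
lemma arith2 {t M S B C0 c0 Y : ℝ} {a : ℝ} (ha : 0 ≤ a) (hM : 1 ≤ M) (hC0 : 0 ≤ C0) (hc0 : 0 < c0)
    (hB : 0 ≤ B) (ht : 0 ≤ t) (hY : 0 ≤ Y) (hS : t + Y + B ≤ S) :
    2 * t + (B + C0 * (26 * (1 + a * √M) + 2 * M) * Y) / c0 ≤
      (2 + (1 + C0 * (26 * (1 + a) + 2)) / c0) * M * S := by
  have hsM : √M ≤ M := by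
    rw [Real.sqrt_le_left (by linarith)]; nlinarith
  have e1 : C0 * (26 * (1 + a * √M) + 2 * M) ≤ C0 * (26 * (1 + a) + 2) * M := by
    rw [mul_assoc]
    refine mul_le_mul_of_nonneg_left ?_ hC0
    have : a * √M ≤ a * M := by gcongr
    nlinarith
  set C1 := C0 * (26 * (1 + a) + 2) with hC1
  have hC10 : 0 ≤ C1 := by positivity
  have hS0 : 0 ≤ S := by linarith
  have hMS : S ≤ M * S := by nlinarith
  have hYS : Y ≤ S := by linarith
  have e2 : C0 * (26 * (1 + a * √M) + 2 * M) * Y ≤ C1 * M * S := by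
    calc _ ≤ C1 * M * Y := by gcongr
      _ ≤ _ := by gcongr
  have e3 : B + C0 * (26 * (1 + a * √M) + 2 * M) * Y ≤ (1 + C1) * M * S := by
    have : B ≤ M * S := by linarith
    linarith
  have e4 : 2 * t ≤ 2 * M * S := by
    have : t ≤ S := by linarith
    linarith
  calc _ ≤ 2 * M * S + ((1 + C1) * M * S) / c0 := by gcongr
    _ = (2 + (1 + C1) / c0) * M * S := by ring

/-- **[POINTS]** -/
theorem pointsStmt (E : Type*) [NormedAddCommGroup E] [InnerProductSpace ℝ E]
    [FiniteDimensional ℝ E] [MeasurableSpace E] [BorelSpace E] (m n : ℕ) : PointsStmt E m n := by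
  obtain ⟨C0, hC0, hb⟩ := exists_C0
  obtain ⟨Cφ, hCφ, hφ⟩ := exists_phi_bd m n (sW m) (by unfold sW; omega)
  have hcg := cg_pos m
  set c0 : ℝ := cg m / 2 ^ m with hc0
  have hc0pos : 0 < c0 := by positivity
  set ε : ℝ := 1 / (n + 1) with hε
  have hε0 : 0 < ε := by positivity
  have hnε : n * ε ≤ 1 := by
    rw [hε, mul_one_div, div_le_one (by positivity)]; linarith
  have hε1 : ε ≤ 1 := by
    rw [hε, div_le_one (by positivity)]; linarith [(Nat.cast_nonneg n : (0:ℝ) ≤ n)]
  set C1 : ℝ := C0 * (26 * (1 + √m) + 2) with hC1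
  have hm0 : 0 ≤ √(m:ℝ) := Real.sqrt_nonneg _
  have hC10 : 0 ≤ C1 := by positivity
  set C : ℝ := Cφ * 2 ^ (m + sW m) + 2 + (1 + C1) / c0 with hC
  have hC2 : Cφ * 2 ^ (m + sW m) ≤ C := by
    have : 0 ≤ (1 + C1) / c0 := by positivity
    rw [hC]; linarith
  have hCpos : 0 < C := by positivity
  refine ⟨ε, C, hε0, hCpos, fun T F u Q r ρ t h δ M η σ ν P z hR hr ht htρ hI hz hzr hM hη hη1
    hmass hen hcone hsup => ?_⟩
  have hfin := hI.cyl.fin
  have hρ : 0 < ρ := ht.trans_le htρ
  have hρ1 : ρ ≤ 1 := by linarith [norm_nonneg (T.starProjection z)]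
  have hu := hR.smooth
  have href := ref_lift (F := F) hu
  have hsW : 2 ≤ sW m := by unfold sW; omega
  -- the scale
  set ρ' : ℝ := ρ / 2 with hρ'
  have hρ'0 : 0 < ρ' := by positivity
  have hub : ∀ a, ∀ k ≤ sW m, ∀ x, ‖iteratedFDeriv ℝ k (u a) x‖ ≤ 1 := fun a k hk x =>
    (hR.small a k hk x).trans hε1
  have hD1 : ∀ y, ‖fderiv ℝ (F.lift u) y‖ ≤ 1 := fun y =>
    (norm_fderiv_lift_le hu (fun a => hR.small a 1 (by omega) _) rfl).trans hnε
  have hD2 : ∀ y, ‖fderiv ℝ (fderiv ℝ (F.lift u)) y‖ ≤ 1 := fun y =>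
    (norm_fderiv2_lift_le hu (fun a => hR.small a 2 hsW _) rfl).trans hnε
  have hlip : ∀ x y, ‖F.lift u x - F.lift u y‖ ≤ ‖T.starProjection x - T.starProjection y‖ := by
    intro x y
    rw [href.base x, href.base y]
    have h1 := (convex_univ : Convex ℝ (univ : Set E)).norm_image_sub_le_of_norm_fderiv_le
      (𝕜 := ℝ) (f := F.lift u) (C := 1) (x := T.starProjection y) (y := T.starProjection x)
      (fun z _ => href.diff z) (fun z _ => hD1 z) (mem_univ _) (mem_univ _)
    linarith
  have hsuppae : ∀ᵐ y ∂ν, y ∈ ν.support := Measure.support_mem_ae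
  have hσ : 0 ≤ σ := by
    refine (norm_nonneg _).trans (hsup z hz ?_)
    rw [sub_self, norm_zero]; exact hρ
  -- the kernel mean at scale ρ'
  set B : ℝ := ∑ a, |∫ y, phi u (F.xc z) ρ' (F.xc y) * F.ht u a y ∂ν| with hB
  have hB0 : 0 ≤ B := Finset.sum_nonneg fun _ _ => abs_nonneg _
  have hz38 : ‖T.starProjection z‖ + 2 * ρ < 3 / 8 := by linarith
  have hJ : ∀ e : E, ‖e‖ ≤ 1 →
      |Jk m T (F.lift u) (T.starProjection z) sk ν e ρ'| ≤ B := fun e he =>
    abs_Jk_le hI hu hρ'0 (by rw [sub_zero]; linarith) he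
  -- cone bound at any scale `s ≤ t`
  have hconeae : ∀ s, s ≤ t → ∀ᵐ y ∂ν, T.starProjection y ∈ ball (T.starProjection z) s →
      ‖rel T (F.lift u) y - rel T (F.lift u) z‖ ≤ 2 * t := by
    intro s hst
    filter_upwards [hsuppae] with y hy hys
    rw [mem_ball, dist_eq_norm] at hys
    have h1 := hcone y hy (hys.trans_le hst)
    have h2 := hlip y z
    have h3 : rel T (F.lift u) y - rel T (F.lift u) z =
        (FV.co T y - FV.co T z) - (F.lift u y - F.lift u z) := by
      unfold rel; abel
    rw [h3]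
    refine (norm_sub_le _ _).trans ?_
    linarith
  have hlow : ∀ s, 0 < s → s ≤ ρ → c0 ≤ s ^ (-m : ℤ) *
      ∫ x, ker T (F.lift u) (T.starProjection z) sk s x ∂ν := fun s hs hsρ =>
    low_ker hI href hz hs (by rw [sub_zero]; linarith) fun x => by
      have := hlip x (T.starProjection z)
      rwa [star_self] at this
  have hlog : 0 ≤ Real.log (ρ / t) := Real.log_nonneg (by rw [one_le_div ht]; exact htρ)
  have hη0 : 0 ≤ √η := Real.sqrt_nonneg _
  set S : ℝ := t + ρ ^ 2 * (σ + √η) + σ * √η * Real.log (ρ / t) + B with hS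
  have hS0 : 0 ≤ S := by positivity
  refine ⟨phi u (F.xc z) ρ', contDiff_phi hu _ _, fun x hx => phi_zero hρ'0 (by linarith), ?_, ?_⟩
  · intro k hk x
    refine (hφ u (F.xc z) ρ' hu hub hρ'0 (by linarith) k hk x).trans ?_
    have h1 : ρ'⁻¹ = 2 * ρ⁻¹ := by rw [hρ']; field_simp
    have hρi : 0 < ρ⁻¹ := by positivity
    calc Cφ * ρ'⁻¹ ^ (m + k) = Cφ * 2 ^ (m + k) * ρ⁻¹ ^ (m + k) := by rw [h1, mul_pow]; ring
      _ ≤ Cφ * 2 ^ (m + sW m) * ρ⁻¹ ^ (m + k) := by
          gcongr
          · norm_num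
      _ ≤ C * ρ⁻¹ ^ (m + k) := by gcongr
  · -- the value at `z`
    show ‖rel T (F.lift u) z‖ ≤ C * M * S
    have hCM : (2 + (1 + C1) / c0) * M ≤ C * M := by
      have : 0 ≤ Cφ * 2 ^ (m + sW m) := by positivity
      have : 2 + (1 + C1) / c0 ≤ C := by rw [hC]; linarith
      gcongr
    refine le_trans ?_ (mul_le_mul_of_nonneg_right hCM hS0)
    rcases le_total t ρ' with htρ' | htρ'
    · -- proper range of scales
      have H : PHyp m T (ball 0 (3 / 8)) h ν P (F.lift u) (T.starProjection z) t ρ' σ η M :=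
        { cyl := hI.cyl
          ref := href
          mem := T.starProjection_apply_mem z
          t1pos := ht
          t1le := htρ'
          ρle := by linarith
          sub := by
            intro x hx
            rw [mem_ball] at hx ⊢
            have := dist_triangle x (T.starProjection z) 0
            rw [dist_zero_right (T.starProjection z)] at this
            linarith
          exact := fun y hy => by
            refine lap_eq_zero hu fun a => hR.exact a _ ?_
            rw [norm_xc]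
            rw [mem_ball, dist_eq_norm] at hy
            have := norm_le_norm_add_norm_sub' (T.starProjection y) (T.starProjection z)
            rw [norm_sub_rev] at this
            linarith [norm_sub_rev (T.starProjection y) (T.starProjection z)]
          k1 := fun y _ => hD1 y
          k2 := fun y _ => hD2 y
          Λ0 := hσ
          sup := by
            filter_upwards [hsuppae] with y hy hys
            refine hsup y hy ?_
            rw [mem_ball, dist_eq_norm] at hys
            linarith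
          ε0 := hη
          ε1 := hη1
          en := fun s hs => hen s hs.1 (by linarith [hs.2])
          M0 := by linarith
          mass := fun s hs => hmass s hs.1 (by linarith [hs.2]) }
      have hp := H.point kern_sk hC0 hb hc0pos (hconeae t le_rfl) (hlow t ht htρ) hJ
      refine hp.trans ?_
      have hlog2 : Real.log (ρ' / t) ≤ Real.log (ρ / t) :=
        Real.log_le_log (by positivity) (by gcongr; linarith)
      have hlog3 : 0 ≤ Real.log (ρ' / t) := Real.log_nonneg (by rw [one_le_div ht]; exact htρ')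
      have a1 : σ * √η * Real.log (ρ' / t) ≤ σ * √η * Real.log (ρ / t) := by gcongr
      have a2 : ρ' ^ 2 * (√η + σ) ≤ ρ ^ 2 * (σ + √η) := by
        rw [add_comm (√η) σ]
        gcongr
        linarith
      exact arith2 hm0 hM hC0 hc0pos hB0 ht.le (by positivity) (by rw [hS]; linarith)
    · -- `t` comparable to `ρ`
      have hp := cone_le hI.cyl href (T.starProjection_apply_mem z) hρ'0 (by
          intro x hx
          rw [mem_closedBall] at hx
          rw [mem_ball]
          have := dist_triangle x (T.starProjection z) 0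
          rw [dist_zero_right (T.starProjection z)] at this
          linarith) kern_sk hc0pos (hconeae ρ' htρ') (hlow ρ' hρ'0 (by linarith)) hJ
      refine hp.trans ?_
      have h0 : 0 ≤ ρ ^ 2 * (σ + √η) + σ * √η * Real.log (ρ / t) := by positivity
      exact arith1 hM hC10 hc0pos hB0 ht.le (by rw [hS]; linarith) (by rw [hS]; linarith)

end Vale.Agent.P214.KMS
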