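import Vale.Agent.P214.FV.Soft

/-!
# P214, block KMS: linear algebra of a plane `P` against the tangent plane `R` of a graph

`A : E →L E` is a slope operator (`A = q A p`), `gpl T A = {t + A t : t ∈ T}` the graph plane,
`slp T A = q - A` (kernel = graph plane).
-/

open Set Filter Topology MeasureTheory Metric
open scoped RealInnerProductSpace

set_option linter.all false

namespace Vale.Agent.P214.KMS

open Vale.Agent.P214.FV

variable {E : Type*} [NormedAddCommGroup E] [InnerProductSpace ℝ E] [FiniteDimensional ℝ E]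
variable {F : Type*} [NormedAddCommGroup F] [NormedSpace ℝ F]

/-- trace of a bilinear map against an operator: `∑ β (B b_k) b_k` -/
noncomputable def trb (β : E →L[ℝ] E →L[ℝ] F) (B : E →L[ℝ] E) : F :=
  ∑ k, β (B (stdOrthonormalBasis ℝ E k)) (stdOrthonormalBasis ℝ E k)

/-- second slot version -/
lemma sum_bil_star (S : Submodule ℝ E) (β : E →L[ℝ] E →L[ℝ] F) :
    ∑ k, β (S.starProjection (stdOrthonormalBasis ℝ E k)) (stdOrthonormalBasis ℝ E k) =
    ∑ k, β (S.starProjection (stdOrthonormalBasis ℝ E k))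
      (S.starProjection (stdOrthonormalBasis ℝ E k)) := by
  set b := stdOrthonormalBasis ℝ E with hb
  have h1 : ∀ v : E, S.starProjection v = ∑ j, ⟪b j, S.starProjection v⟫ • b j := fun v =>
    (b.sum_repr' _).symm
  have h2 : ∀ k, β (S.starProjection (b k)) (b k) = ∑ j, ⟪b j, S.starProjection (b k)⟫ • β (b j) (b k) := by
    intro k
    conv_lhs => rw [h1 (b k)]
    simp only [map_sum, map_smul, ContinuousLinearMap.sum_apply, ContinuousLinearMap.smul_apply]
  have h3 : ∀ k, β (S.starProjection (b k)) (S.starProjection (b k)) =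
      ∑ j, ∑ l, (⟪b j, S.starProjection (b k)⟫ * ⟪b l, S.starProjection (b k)⟫) • β (b j) (b l) := by
    intro k
    conv_lhs => rw [h1 (b k)]
    simp only [map_sum, map_smul, ContinuousLinearMap.sum_apply, ContinuousLinearMap.smul_apply,
      Finset.smul_sum, smul_smul]
    rw [Finset.sum_comm]
    refine Finset.sum_congr rfl fun j _ => ?_
    refine Finset.sum_congr rfl fun l _ => ?_
    rw [mul_comm]
  have h4 : ∀ j l, ∑ k, ⟪b j, S.starProjection (b k)⟫ * ⟪b l, S.starProjection (b k)⟫ =
      ⟪b j, S.starProjection (b l)⟫ := by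
    intro j l
    have : ∀ k, ⟪b j, S.starProjection (b k)⟫ * ⟪b l, S.starProjection (b k)⟫ =
        ⟪S.starProjection (b j), b k⟫ * ⟪b k, S.starProjection (b l)⟫ := fun k => by
      rw [← inner_star S (b j), real_inner_comm (S.starProjection (b k)), inner_star S (b k)]
    simp only [this]
    rw [b.sum_inner_mul_inner, inner_star, star_self]
  simp only [h2, h3]
  rw [Finset.sum_comm]
  conv_rhs => rw [Finset.sum_comm]
  refine Finset.sum_congr rfl fun j _ => ?_
  rw [Finset.sum_comm]
  refine Finset.sum_congr rfl fun l _ => ?_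
  rw [← Finset.sum_smul, h4]

lemma sum_bil_star' (S : Submodule ℝ E) (β : E →L[ℝ] E →L[ℝ] F) :
    ∑ k, β (S.starProjection (stdOrthonormalBasis ℝ E k)) (co S (stdOrthonormalBasis ℝ E k)) = 0 := by
  simp only [co_apply, map_sub]
  rw [Finset.sum_sub_distrib, sum_bil_star, sub_self]

lemma sum_bil_star'' (S : Submodule ℝ E) (β : E →L[ℝ] E →L[ℝ] F) :
    ∑ k, β (co S (stdOrthonormalBasis ℝ E k)) (S.starProjection (stdOrthonormalBasis ℝ E k)) = 0 := by
  have := sum_bil_star' S β.flip
  simpa using this

/-- `trb β P = ∑ β (P b_k) (P b_k)` -/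
lemma trb_star (S : Submodule ℝ E) (β : E →L[ℝ] E →L[ℝ] F) :
    trb β S.starProjection = ∑ k, β (S.starProjection (stdOrthonormalBasis ℝ E k))
      (S.starProjection (stdOrthonormalBasis ℝ E k)) := sum_bil_star S β

lemma sum_norm_sq_star (S : Submodule ℝ E) :
    ∑ k, ‖S.starProjection (stdOrthonormalBasis ℝ E k)‖ ^ 2 = Module.finrank ℝ S := by
  rw [← tr_starProjection S, tr_eq_sum (stdOrthonormalBasis ℝ E)]
  refine Finset.sum_congr rfl fun k _ => ?_
  rw [inner_star_self]

/-- Cauchy-Schwarz for sums over the basis -/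
lemma sum_mul_le (X Y : E →L[ℝ] E) :
    ∑ k, ‖X (stdOrthonormalBasis ℝ E k)‖ * ‖Y (stdOrthonormalBasis ℝ E k)‖ ≤ √(hs X) * √(hs Y) := by
  have := Real.sum_mul_le_sqrt_mul_sqrt Finset.univ
    (fun k => ‖X (stdOrthonormalBasis ℝ E k)‖) (fun k => ‖Y (stdOrthonormalBasis ℝ E k)‖)
  exact this

/-- the defect of a slope operator -/
noncomputable def slp (T : Submodule ℝ E) (A : E →L[ℝ] E) : E →L[ℝ] E := co T - A

/-- the graph plane -/
noncomputable def gpl (T : Submodule ℝ E) (A : E →L[ℝ] E) : Submodule ℝ E :=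
  T.map ((ContinuousLinearMap.id ℝ E + A : E →L[ℝ] E) : E →ₗ[ℝ] E)

/-- slope operators: `A` maps into `Tᗮ` and vanishes on `Tᗮ` -/
structure Slope (T : Submodule ℝ E) (A : E →L[ℝ] E) : Prop where
  range : ∀ v, A v ∈ Tᗮ
  ker : ∀ v, A v = A (T.starProjection v)

variable {T : Submodule ℝ E} {A : E →L[ℝ] E}

lemma Slope.star (hA : Slope T A) (v : E) : T.starProjection (A v) = 0 := by
  have := hA.range v
  rw [Submodule.starProjection_apply_eq_zero_iff]
  exact this

lemma Slope.co (hA : Slope T A) (v : E) : co T (A v) = A v := by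
  rw [co_apply, hA.star, sub_zero]

lemma mem_gpl {y : E} : y ∈ gpl T A ↔ ∃ t ∈ T, t + A t = y := by
  simp [gpl]

lemma slp_gpl (hA : Slope T A) {y : E} (hy : y ∈ gpl T A) : slp T A y = 0 := by
  obtain ⟨t, ht, rfl⟩ := mem_gpl.1 hy
  have h1 : T.starProjection t = t := Submodule.starProjection_eq_self_iff.2 ht
  have h2 : FV.co T (t + A t) = A t := by
    rw [map_add, co_apply T t, h1, sub_self, zero_add, hA.co]
  have h3 : A (t + A t) = A t := by
    rw [hA.ker (t + A t), map_add, h1, hA.star, add_zero]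
  rw [slp, ContinuousLinearMap.sub_apply, h2, h3, sub_self]

/-- on the orthogonal complement of the graph plane -/
lemma norm_le_slp (hA : Slope T A) {y : E} (hy : y ∈ (gpl T A)ᗮ) : ‖y‖ ≤ ‖slp T A y‖ := by
  have h1 : ⟪T.starProjection y + A y, y⟫ = 0 := by
    refine (Submodule.mem_orthogonal _ _).1 hy _ ?_
    refine mem_gpl.2 ⟨T.starProjection y, T.starProjection_apply_mem y, ?_⟩
    rw [← hA.ker]
  have h2 : ⟪A y, y⟫ = ⟪A y, FV.co T y⟫ := by
    rw [← inner_co, hA.co]
  have h3 : ⟪slp T A y, FV.co T y⟫ = ‖y‖ ^ 2 := by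
    rw [slp, ContinuousLinearMap.sub_apply, inner_sub_left, real_inner_self_eq_norm_sq,
      norm_sq_star_add_co T y, ← h2]
    rw [inner_add_left, inner_star, inner_star_self] at h1
    linarith
  have h4 : ‖y‖ ^ 2 ≤ ‖slp T A y‖ * ‖y‖ := by
    rw [← h3]
    exact (real_inner_le_norm _ _).trans (by gcongr; exact norm_co_le T y)
  by_cases h0 : ‖y‖ = 0
  · rw [h0]; positivity
  · have : 0 < ‖y‖ := lt_of_le_of_ne (norm_nonneg _) (Ne.symm h0)
    nlinarith

/-- `p` of a normal vector of the graph plane is small -/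
lemma norm_star_le_of_orth (hA : Slope T A) {y : E} (hy : y ∈ (gpl T A)ᗮ) :
    ‖T.starProjection y‖ ≤ ‖A‖ * ‖y‖ := by
  have h1 : ⟪T.starProjection y + A y, y⟫ = 0 := by
    refine (Submodule.mem_orthogonal _ _).1 hy _ ?_
    refine mem_gpl.2 ⟨T.starProjection y, T.starProjection_apply_mem y, ?_⟩
    rw [← hA.ker]
  rw [inner_add_left, inner_star, inner_star_self] at h1
  have h2 : ‖T.starProjection y‖ ^ 2 ≤ ‖T.starProjection y‖ * (‖A‖ * ‖y‖) := by
    have h3 : -⟪A y, y⟫ ≤ ‖A y‖ * ‖y‖ := by
      have := abs_real_inner_le_norm (A y) y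
      linarith [neg_abs_le ⟪A y, y⟫]
    have h4 : ‖A y‖ ≤ ‖A‖ * ‖T.starProjection y‖ := by
      rw [hA.ker]; exact A.le_opNorm _
    calc ‖T.starProjection y‖ ^ 2 = -⟪A y, y⟫ := by linarith
      _ ≤ ‖A y‖ * ‖y‖ := h3
      _ ≤ (‖A‖ * ‖T.starProjection y‖) * ‖y‖ := by gcongr
      _ = _ := by ring
  by_cases h0 : ‖T.starProjection y‖ = 0
  · rw [h0]; positivity
  · have : 0 < ‖T.starProjection y‖ := lt_of_le_of_ne (norm_nonneg _) (Ne.symm h0)
    nlinarith

lemma norm_co_gpl_le (hA : Slope T A) (y : E) : ‖FV.co (gpl T A) y‖ ≤ ‖slp T A y‖ := by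
  have h1 : FV.co (gpl T A) y ∈ (gpl T A)ᗮ := by
    rw [co_eq]; exact Submodule.starProjection_apply_mem _ _
  refine (norm_le_slp hA h1).trans ?_
  rw [co_apply, map_sub, slp_gpl hA ((gpl T A).starProjection_apply_mem y), sub_zero]

lemma norm_star_co_gpl_le (hA : Slope T A) (y : E) :
    ‖T.starProjection (FV.co (gpl T A) y)‖ ≤ ‖A‖ * ‖FV.co (gpl T A) y‖ :=
  norm_star_le_of_orth hA (by rw [co_eq]; exact Submodule.starProjection_apply_mem _ _)

/-- the relative energy density `∑ |L (B b_k)|²`, `L = q - A` -/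
noncomputable def ew (T : Submodule ℝ E) (A B : E →L[ℝ] E) : ℝ := hs ((slp T A).comp B)

/-- tilt against the graph plane is bounded by the relative energy -/
lemma tilt_gpl_le (hA : Slope T A) (S : Submodule ℝ E) :
    tilt (gpl T A) S.starProjection ≤ ew T A S.starProjection := by
  rw [← hs_co_comp]
  refine Finset.sum_le_sum fun k _ => ?_
  have := norm_co_gpl_le hA (S.starProjection (stdOrthonormalBasis ℝ E k))
  simp only [ContinuousLinearMap.comp_apply]
  gcongr

/-- tilt against the base plane -/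
lemma tilt_le_ew (hA : Slope T A) (S : Submodule ℝ E) :
    tilt T S.starProjection ≤ 2 * ew T A S.starProjection + 2 * ‖A‖ ^ 2 * Module.finrank ℝ S := by
  rw [← hs_co_comp, ← sum_norm_sq_star S, ew, hs, hs, Finset.mul_sum, Finset.mul_sum,
    ← Finset.sum_add_distrib]
  refine Finset.sum_le_sum fun k _ => ?_
  simp only [ContinuousLinearMap.comp_apply]
  set y := S.starProjection (stdOrthonormalBasis ℝ E k)
  have h1 : FV.co T y = slp T A y + A y := by rw [slp]; simp
  have h2 : ‖FV.co T y‖ ≤ ‖slp T A y‖ + ‖A‖ * ‖y‖ := by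
    rw [h1]
    exact (norm_add_le _ _).trans (by gcongr; exact A.le_opNorm y)
  calc ‖FV.co T y‖ ^ 2 ≤ (‖slp T A y‖ + ‖A‖ * ‖y‖) ^ 2 := by gcongr
    _ ≤ _ := by nlinarith [sq_nonneg (‖slp T A y‖ - ‖A‖ * ‖y‖)]

/-- **comparison of traces over `P` and over the graph plane `R`**, for a bilinear map that only
depends on horizontal components -/
lemma norm_trb_sub_le (hA : Slope T A) (S : Submodule ℝ E)
    (hS : Module.finrank ℝ S = Module.finrank ℝ (gpl T A)) (β : E →L[ℝ] E →L[ℝ] F)
    (hβ1 : ∀ u v, β u v = β (T.starProjection u) v) (hβ2 : ∀ u v, β u v = β u (T.starProjection v)) :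
    ‖trb β S.starProjection - trb β (gpl T A).starProjection‖ ≤
      ‖β‖ * (2 * tilt (gpl T A) S.starProjection +
        2 * ‖A‖ * (√(Module.finrank ℝ S) * √(tilt (gpl T A) S.starProjection))) := by
  set R := gpl T A with hR
  set b := stdOrthonormalBasis ℝ E with hb
  have hbd : ∀ u v, ‖β u v‖ ≤ ‖β‖ * ‖u‖ * ‖v‖ := fun u v => β.le_opNorm₂ u v
  -- decompose P b_k
  have e1 : trb β S.starProjection = ∑ k, β (R.starProjection (S.starProjection (b k)))
      (R.starProjection (S.starProjection (b k))) +
      ∑ k, (β (R.starProjection (S.starProjection (b k))) (FV.co R (S.starProjection (b k))) +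
        β (FV.co R (S.starProjection (b k))) (R.starProjection (S.starProjection (b k))) +
        β (FV.co R (S.starProjection (b k))) (FV.co R (S.starProjection (b k)))) := by
    rw [trb_star, ← Finset.sum_add_distrib]
    refine Finset.sum_congr rfl fun k _ => ?_
    conv_lhs => rw [← star_add_co R (S.starProjection (b k))]
    simp only [map_add, ContinuousLinearMap.add_apply]
    abel
  have e2 : trb β R.starProjection = ∑ k, β (R.starProjection (S.starProjection (b k)))
      (R.starProjection (S.starProjection (b k))) +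
      ∑ k, β (R.starProjection (FV.co S (b k))) (R.starProjection (FV.co S (b k))) := by
    -- `trb β R = ∑ β (R b_k) (R b_k)`, split `b_k = P b_k + (1-P) b_k`
    rw [trb_star]
    set β' : E →L[ℝ] E →L[ℝ] F := (β.bilinearComp R.starProjection R.starProjection) with hβ'
    have hval : ∀ u v, β' u v = β (R.starProjection u) (R.starProjection v) := fun u v => by
      simp [hβ', ContinuousLinearMap.bilinearComp_apply]
    have c1 := sum_bil_star' S β'
    have c2 := sum_bil_star'' S β'
    simp only [← hval]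
    have : ∀ k, β' (b k) (b k) = β' (S.starProjection (b k)) (S.starProjection (b k)) +
        β' (FV.co S (b k)) (FV.co S (b k)) + (β' (S.starProjection (b k)) (FV.co S (b k)) +
        β' (FV.co S (b k)) (S.starProjection (b k))) := by
      intro k
      conv_lhs => rw [← star_add_co S (b k)]
      simp only [map_add, ContinuousLinearMap.add_apply]
      abel
    rw [Finset.sum_congr rfl fun k _ => this k, Finset.sum_add_distrib, Finset.sum_add_distrib,
      Finset.sum_add_distrib, c1, c2]
    simp
  rw [e1, e2, add_sub_add_left_eq_sub]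
  have hfin : tilt S R.starProjection = tilt R S.starProjection := by
    rw [tilt_star, tilt_star, tr_comp_comm, hS]
  -- bound of the R(1-P) term
  have t1 : ‖∑ k, β (R.starProjection (FV.co S (b k))) (R.starProjection (FV.co S (b k)))‖ ≤
      ‖β‖ * tilt R S.starProjection := by
    calc _ ≤ ∑ k, ‖β‖ * ‖R.starProjection (FV.co S (b k))‖ ^ 2 := by
          refine (norm_sum_le _ _).trans (Finset.sum_le_sum fun k _ => ?_)
          refine (hbd _ _).trans (le_of_eq (by ring))
      _ = ‖β‖ * hs (R.starProjection.comp (FV.co S)) := by rw [hs, Finset.mul_sum]; rfl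
      _ = _ := by rw [hs_comp_co, hfin]
  have hpn : ∀ k, ‖T.starProjection (FV.co R (S.starProjection (b k)))‖ ≤
      ‖A‖ * ‖FV.co R (S.starProjection (b k))‖ := fun k => norm_star_co_gpl_le hA _
  have t2 : ‖∑ k, (β (R.starProjection (S.starProjection (b k))) (FV.co R (S.starProjection (b k))) +
        β (FV.co R (S.starProjection (b k))) (R.starProjection (S.starProjection (b k))) +
        β (FV.co R (S.starProjection (b k))) (FV.co R (S.starProjection (b k))))‖ ≤
      ‖β‖ * (2 * ‖A‖ * (√(Module.finrank ℝ S) * √(tilt R S.starProjection)) +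
        tilt R S.starProjection) := by
    calc _ ≤ ∑ k, (‖β‖ * (2 * ‖A‖) * (‖S.starProjection (b k)‖ *
            ‖((FV.co R).comp S.starProjection) (b k)‖) +
            ‖β‖ * ‖((FV.co R).comp S.starProjection) (b k)‖ ^ 2) := by
          refine (norm_sum_le _ _).trans (Finset.sum_le_sum fun k _ => ?_)
          simp only [ContinuousLinearMap.comp_apply]
          set s := S.starProjection (b k)
          have a1 : ‖β (R.starProjection s) (FV.co R s)‖ ≤ ‖β‖ * ‖s‖ * (‖A‖ * ‖FV.co R s‖) := by
            rw [hβ2]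
            refine (hbd _ _).trans ?_
            gcongr
            · exact norm_star_le R s
            · exact hpn k
          have a2 : ‖β (FV.co R s) (R.starProjection s)‖ ≤ ‖β‖ * (‖A‖ * ‖FV.co R s‖) * ‖s‖ := by
            rw [hβ1]
            refine (hbd _ _).trans ?_
            gcongr
            · exact hpn k
            · exact norm_star_le R s
          have a3 : ‖β (FV.co R s) (FV.co R s)‖ ≤ ‖β‖ * ‖FV.co R s‖ * ‖FV.co R s‖ := hbd _ _
          refine (norm_add₃_le).trans ?_
          nlinarith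
      _ ≤ ‖β‖ * (2 * ‖A‖) * (√(hs S.starProjection) * √(hs ((FV.co R).comp S.starProjection))) +
            ‖β‖ * hs ((FV.co R).comp S.starProjection) := by
          rw [Finset.sum_add_distrib, ← Finset.mul_sum, ← Finset.mul_sum]
          gcongr
          · exact sum_mul_le _ _
          · exact le_of_eq rfl
      _ = _ := by
          have : hs S.starProjection = Module.finrank ℝ S := sum_norm_sq_star S
          rw [hs_co_comp, this]
          ring
  calc _ ≤ _ := norm_sub_le _ _
    _ ≤ ‖β‖ * (2 * ‖A‖ * (√(Module.finrank ℝ S) * √(tilt R S.starProjection)) +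
        tilt R S.starProjection) + ‖β‖ * tilt R S.starProjection := add_le_add t2 t1
    _ = _ := by ring

/-- the graph plane of `0` is `T` -/
lemma gpl_zero : gpl T (0 : E →L[ℝ] E) = T := by
  ext y; simp [mem_gpl]

lemma slope_zero : Slope T (0 : E →L[ℝ] E) := ⟨fun v => by simp, fun v => by simp⟩

/-- dimension of the graph plane -/
lemma finrank_gpl (hA : Slope T A) : Module.finrank ℝ (gpl T A) = Module.finrank ℝ T := by
  refine (LinearEquiv.finrank_eq (Submodule.equivMapOfInjective _ ?_ T)).symm
  intro x y hxy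
  have h1 : x + A x = y + A y := by simpa using hxy
  have h2 : T.starProjection x = T.starProjection y := by
    have := congrArg T.starProjection h1
    rwa [map_add, map_add, hA.star, hA.star, add_zero, add_zero] at this
  have h3 : A x = A y := by rw [hA.ker x, hA.ker y, h2]
  rw [h3] at h1
  exact add_right_cancel h1

/-- flat comparison: `|tr_P β - tr_T β| ≤ 2 ‖β‖ tilt` -/
lemma norm_trb_sub_flat_le (S : Submodule ℝ E) (hS : Module.finrank ℝ S = Module.finrank ℝ T)
    (β : E →L[ℝ] E →L[ℝ] F)
    (hβ1 : ∀ u v, β u v = β (T.starProjection u) v) (hβ2 : ∀ u v, β u v = β u (T.starProjection v)) :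
    ‖trb β S.starProjection - trb β T.starProjection‖ ≤ ‖β‖ * (2 * tilt T S.starProjection) := by
  have := norm_trb_sub_le (T := T) (A := 0) slope_zero S (by rw [gpl_zero, hS]) β hβ1 hβ2
  rw [gpl_zero] at this
  simpa using this

end Vale.Agent.P214.KMS
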