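import Vale.Agent.P214.KMS.Main
import Vale.Agent.P214.ODE.Pack

/-!
# P214, block KMS: extrinsic radial kernels on an exactly minimal graph

`xi T w x1 y = (p y - x1) + (w y - w x1)` position on the graph relative to the base point `x1`,
`K (‖xi‖²/t²)`: hessian trace along the tangent plane of the graph
`= -(m k + 2 k' ‖R xi‖²/t²)/t²`.
-/

open Set Filter Topology MeasureTheory Metric
open scoped RealInnerProductSpace ContDiff

set_option linter.all false

namespace Vale.Agent.P214.KMS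

open Vale.Agent.P214.FV Vale.Agent.P214.Skel Vale.Agent.P214.ODE

variable {E : Type*} [NormedAddCommGroup E] [InnerProductSpace ℝ E] [FiniteDimensional ℝ E]
variable {T : Submodule ℝ E} {w : E → E} {x1 : E} {m : ℕ}

/-- position on the graph relative to the point over `x1` -/
noncomputable def xi (T : Submodule ℝ E) (w : E → E) (x1 y : E) : E :=
  (T.starProjection y - x1) + (w y - w x1)

/-- derivative of the graph map -/
noncomputable def gam (T : Submodule ℝ E) (w : E → E) (y : E) : E →L[ℝ] E :=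
  T.starProjection + fderiv ℝ w y

lemma contDiff_xi (hw : Ref T w) : ContDiff ℝ ∞ (xi T w x1) :=
  (T.starProjection.contDiff.sub contDiff_const).add (hw.smooth.sub contDiff_const)

lemma hasFDerivAt_xi (hw : Ref T w) (y : E) : HasFDerivAt (xi T w x1) (gam T w y) y :=
  (T.starProjection.hasFDerivAt.sub_const x1).add ((hw.diff y).hasFDerivAt.sub_const (w x1))

lemma norm_sq_xi (hw : Ref T w) (hx1 : x1 ∈ T) (y : E) :
    ‖xi T w x1 y‖ ^ 2 = ‖T.starProjection y - x1‖ ^ 2 + ‖w y - w x1‖ ^ 2 := by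
  have h1 : ⟪T.starProjection y - x1, w y - w x1⟫ = 0 :=
    (Submodule.mem_orthogonal _ _).1 (Tᗮ.sub_mem (hw.perp y) (hw.perp x1)) _
      (T.sub_mem (T.starProjection_apply_mem y) hx1)
  rw [xi, norm_add_sq_real, h1]
  ring

lemma norm_base_le_xi (hw : Ref T w) (hx1 : x1 ∈ T) (y : E) :
    ‖T.starProjection y - x1‖ ≤ ‖xi T w x1 y‖ := by
  refine abs_le_of_sq_le_sq' ?_ (norm_nonneg _) |>.2
  rw [norm_sq_xi hw hx1]
  nlinarith [sq_nonneg ‖w y - w x1‖]

lemma fderiv_fderiv_xi (hw : Ref T w) (y u v : E) :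
    fderiv ℝ (fderiv ℝ (xi T w x1)) y u v = fderiv ℝ (fderiv ℝ w) y u v := by
  have h1 : fderiv ℝ (xi T w x1) = fun y => T.starProjection + fderiv ℝ w y := by
    funext y; exact (hasFDerivAt_xi hw y).fderiv
  have h2 : ContDiff ℝ 1 (fderiv ℝ w) := hw.c2.fderiv_right (by norm_num)
  have h3 : HasFDerivAt (fun y => T.starProjection + fderiv ℝ w y)
      (0 + fderiv ℝ (fderiv ℝ w) y) y :=
    (hasFDerivAt_const T.starProjection y).add (h2.differentiable (by norm_num) y).hasFDerivAt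
  rw [h1, h3.fderiv]
  simp

/-- `xi` is base dependent -/
lemma xi_base (hw : Ref T w) (y : E) : xi T w x1 y = xi T w x1 (T.starProjection y) := by
  rw [xi, xi, star_self, ← hw.base]

/-- the graph map on the graph plane is the identity -/
lemma gam_of_mem (hw : Ref T w) {y u : E} (hu : u ∈ gpl T (fderiv ℝ w y)) : gam T w y u = u := by
  obtain ⟨t, ht, rfl⟩ := mem_gpl.1 hu
  have hs := hw.slope y
  have h1 : T.starProjection t = t := Submodule.starProjection_eq_self_iff.2 ht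
  rw [gam, ContinuousLinearMap.add_apply, map_add, h1, hs.star, add_zero]
  congr 1
  rw [hs.ker (t + fderiv ℝ w y t), map_add, h1, hs.star, add_zero]

lemma norm_gam_le (T : Submodule ℝ E) (w : E → E) (y v : E) :
    ‖gam T w y v‖ ≤ (1 + ‖fderiv ℝ w y‖) * ‖v‖ := by
  rw [gam, ContinuousLinearMap.add_apply]
  calc ‖T.starProjection v + fderiv ℝ w y v‖ ≤ ‖T.starProjection v‖ + ‖fderiv ℝ w y v‖ := norm_add_le _ _
    _ ≤ ‖v‖ + ‖fderiv ℝ w y‖ * ‖v‖ := add_le_add (norm_star_le T v) ((fderiv ℝ w y).le_opNorm v)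
    _ = _ := by ring

variable {k k' K : ℝ → ℝ}

/-- the extrinsic kernel -/
noncomputable def ker (T : Submodule ℝ E) (w : E → E) (x1 : E) (K : ℝ → ℝ) (t : ℝ) (y : E) : ℝ :=
  K (‖xi T w x1 y‖ ^ 2 / t ^ 2)

lemma contDiff_ker (hw : Ref T w) (hk : Kern k k' K) (t : ℝ) : ContDiff ℝ 2 (ker T w x1 K t) :=
  (Kern.contDiff_two hk).comp ((((contDiff_xi hw).of_le two_le_inf).norm_sq ℝ).div_const _)

lemma ker_base (hw : Ref T w) (t : ℝ) (y : E) :
    ker T w x1 K t y = ker T w x1 K t (T.starProjection y) := by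
  rw [ker, ker, xi_base hw]

lemma ker_zero (hw : Ref T w) (hx1 : x1 ∈ T) {ψ ψ' : ℝ → ℝ} (hψ : Profile ψ ψ') {t : ℝ} (ht : 0 < t)
    {y : E} (hy : t ≤ ‖T.starProjection y - x1‖) : ker T w x1 ψ t y = 0 := by
  refine hψ.zero _ ?_
  rw [one_le_div (by positivity)]
  gcongr
  exact hy.trans (norm_base_le_xi hw hx1 y)

lemma hasDerivAt_scaled_arg {ψ ψ' : ℝ → ℝ} (hψ : Profile ψ ψ') (t s : ℝ) :
    HasDerivAt (fun s => ψ (s / t ^ 2)) (ψ' (s / t ^ 2) / t ^ 2) s := by
  have h1 : HasDerivAt (fun s : ℝ => s / t ^ 2) (1 / t ^ 2) s := (hasDerivAt_id s).div_const _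
  have h2 := (hψ.der (s / t ^ 2)).comp s h1
  refine h2.congr_deriv ?_
  ring

/-- second derivative of the extrinsic kernel -/
lemma fderiv_fderiv_ker (hw : Ref T w) (hk : Kern k k' K) {t : ℝ} (ht : 0 < t) (y u v : E) :
    fderiv ℝ (fderiv ℝ (ker T w x1 K t)) y u v =
      4 * (-(k' (‖xi T w x1 y‖ ^ 2 / t ^ 2)) / (2 * t ^ 4)) *
        (⟪xi T w x1 y, gam T w y u⟫ * ⟪xi T w x1 y, gam T w y v⟫) +
      2 * (-(k (‖xi T w x1 y‖ ^ 2 / t ^ 2)) / (2 * t ^ 2)) *
        (⟪gam T w y u, gam T w y v⟫ + ⟪xi T w x1 y, fderiv ℝ (fderiv ℝ w) y u v⟫) := by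
  set g : ℝ → ℝ := fun s => K (s / t ^ 2) with hg
  have hΓ : ContDiff ℝ 2 (fun x : E => g (‖x‖ ^ 2)) :=
    (Kern.contDiff_two hk).comp ((contDiff_norm_sq ℝ).div_const _)
  have hx2 : ContDiff ℝ 2 (xi T w x1) := (contDiff_xi hw).of_le two_le_inf
  have e1 : ∀ s, 0 ≤ s → HasDerivAt g (-(k (s / t ^ 2)) / (2 * t ^ 2)) s := fun s _ => by
    refine (hasDerivAt_scaled_arg hk.pK t s).congr_deriv ?_
    ring
  have e2 : ∀ s, 0 ≤ s → HasDerivAt (fun s => -(k (s / t ^ 2)) / (2 * t ^ 2))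
      (-(k' (s / t ^ 2)) / (2 * t ^ 4)) s := fun s _ => by
    refine (((hasDerivAt_scaled_arg hk.pk t s).neg).div_const (2 * t ^ 2)).congr_deriv ?_
    field_simp
  have h1 := fderiv_fderiv_comp hΓ hx2 y u v
  have h2 : (fun y => g (‖xi T w x1 y‖ ^ 2)) = ker T w x1 K t := rfl
  rw [h2] at h1
  rw [h1, fderiv_fderiv_normsq' e1 e2, fderiv_normsq' e1, (hasFDerivAt_xi hw y).fderiv,
    fderiv_fderiv_xi hw]
  ring

/-- **trace of the extrinsic kernel along the tangent plane of an exact minimal graph** -/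
lemma lap_ker (hw : Ref T w) (hT : Module.finrank ℝ T = m) (hk : Kern k k' K) {t : ℝ} (ht : 0 < t)
    {y : E} (hex : lap w (gpl T (fderiv ℝ w y)).starProjection y = 0) :
    lap (ker T w x1 K t) (gpl T (fderiv ℝ w y)).starProjection y =
      -(m * k (‖xi T w x1 y‖ ^ 2 / t ^ 2) +
        2 * k' (‖xi T w x1 y‖ ^ 2 / t ^ 2) *
          ‖(gpl T (fderiv ℝ w y)).starProjection (xi T w x1 y)‖ ^ 2 / t ^ 2) / t ^ 2 := by
  set R := gpl T (fderiv ℝ w y) with hR
  set b := stdOrthonormalBasis ℝ E with hb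
  set ξ := xi T w x1 y with hξ
  have h1 : lap (ker T w x1 K t) R.starProjection y =
      ∑ k_1, fderiv ℝ (fderiv ℝ (ker T w x1 K t)) y (R.starProjection (b k_1))
        (R.starProjection (b k_1)) := sum_bil_star R _
  have hmem : ∀ k_1, gam T w y (R.starProjection (b k_1)) = R.starProjection (b k_1) := fun k_1 =>
    gam_of_mem hw (R.starProjection_apply_mem _)
  have hex' : ∑ k_1, fderiv ℝ (fderiv ℝ w) y (R.starProjection (b k_1)) (R.starProjection (b k_1)) = 0 := by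
    rw [← sum_bil_star]; exact hex
  have s1 : ∑ k_1, ⟪R.starProjection (b k_1), R.starProjection (b k_1)⟫ = (m : ℝ) := by
    simp only [real_inner_self_eq_norm_sq]
    rw [sum_norm_sq_star, finrank_gpl (hw.slope y), hT]
  have s2 : ∑ k_1, ⟪ξ, R.starProjection (b k_1)⟫ * ⟪ξ, R.starProjection (b k_1)⟫ =
      ‖R.starProjection ξ‖ ^ 2 := by
    simp only [← inner_star R ξ]
    have : ∀ k_1, ⟪R.starProjection ξ, b k_1⟫ * ⟪R.starProjection ξ, b k_1⟫ =
        ⟪R.starProjection ξ, b k_1⟫ * ⟪b k_1, R.starProjection ξ⟫ := fun k_1 => by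
      rw [real_inner_comm (R.starProjection ξ) (b k_1)]
    simp only [this]
    rw [b.sum_inner_mul_inner, real_inner_self_eq_norm_sq]
  have s3 : ∑ k_1, ⟪ξ, fderiv ℝ (fderiv ℝ w) y (R.starProjection (b k_1))
      (R.starProjection (b k_1))⟫ = 0 := by
    rw [← inner_sum, hex', inner_zero_right]
  rw [h1]
  simp only [fderiv_fderiv_ker hw hk ht, hmem, ← hξ]
  rw [Finset.sum_add_distrib, ← Finset.mul_sum, ← Finset.mul_sum, Finset.sum_add_distrib, s1, s2, s3]
  field_simp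
  ring

/-- normal part of the position vector on the graph: second order small -/
lemma norm_co_xi_le (hw : Ref T w) (hx1 : x1 ∈ T) {κ2 : ℝ} {y : E}
    (hκ : ∀ s ∈ Icc (0 : ℝ) 1, ‖fderiv ℝ (fderiv ℝ w) (y + s • (x1 - y))‖ ≤ κ2)
    (hy : y ∈ T) :
    ‖FV.co (gpl T (fderiv ℝ w y)) (xi T w x1 y)‖ ≤ κ2 * ‖y - x1‖ ^ 2 := by
  -- Taylor with first order remainder
  have hκ0 : 0 ≤ κ2 := le_trans (norm_nonneg (fderiv ℝ (fderiv ℝ w) (y + (0:ℝ) • (x1 - y))))
    (hκ 0 ⟨le_rfl, zero_le_one⟩)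
  have h2 : ContDiff ℝ 1 (fderiv ℝ w) := hw.c2.fderiv_right (by norm_num)
  set f : ℝ → E := fun s => w (y + s • (x1 - y)) - s • fderiv ℝ w y (x1 - y) with hf
  have hline : ∀ s, HasDerivAt (fun s : ℝ => y + s • (x1 - y)) (x1 - y) s := fun s => by
    have := ((hasDerivAt_id s).smul_const (x1 - y)).const_add y
    simpa using this
  have hder : ∀ s, HasDerivAt f (fderiv ℝ w (y + s • (x1 - y)) (x1 - y) - fderiv ℝ w y (x1 - y)) s := by
    intro s
    have a1 : HasDerivAt (fun s : ℝ => w (y + s • (x1 - y))) (fderiv ℝ w (y + s • (x1 - y)) (x1 - y)) s :=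
      (hw.diff _).hasFDerivAt.comp_hasDerivAt s (hline s)
    have a2 : HasDerivAt (fun s : ℝ => s • fderiv ℝ w y (x1 - y)) (fderiv ℝ w y (x1 - y)) s := by
      have := (hasDerivAt_id s).smul_const (fderiv ℝ w y (x1 - y))
      simpa using this
    exact a1.sub a2
  have hbd : ∀ s ∈ Icc (0 : ℝ) 1, ‖fderiv ℝ w (y + s • (x1 - y)) - fderiv ℝ w y‖ ≤ κ2 * ‖x1 - y‖ := by
    intro s hs
    have hd2 : ∀ r : ℝ, HasDerivAt (fun r : ℝ => fderiv ℝ w (y + r • (x1 - y)))
        (fderiv ℝ (fderiv ℝ w) (y + r • (x1 - y)) (x1 - y)) r := fun r =>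
      (h2.differentiable (by norm_num) _).hasFDerivAt.comp_hasDerivAt r (hline r)
    have := (convex_Icc (0 : ℝ) 1).norm_image_sub_le_of_norm_hasDerivWithin_le
      (f := fun r : ℝ => fderiv ℝ w (y + r • (x1 - y))) (C := κ2 * ‖x1 - y‖)
      (fun r _ => (hd2 r).hasDerivWithinAt) (fun r hr => by
        refine (ContinuousLinearMap.le_opNorm _ _).trans ?_
        gcongr
        exact hκ r hr) (⟨le_rfl, zero_le_one⟩ : (0 : ℝ) ∈ Icc (0 : ℝ) 1) hs
    simp only [zero_smul, add_zero, sub_zero] at this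
    refine this.trans ?_
    have hs1 : ‖s‖ ≤ 1 := by rw [Real.norm_eq_abs, abs_le]; exact ⟨by linarith [hs.1], hs.2⟩
    have : 0 ≤ κ2 * ‖x1 - y‖ := by positivity
    nlinarith
  have hmv := (convex_Icc (0 : ℝ) 1).norm_image_sub_le_of_norm_hasDerivWithin_le
      (f := f) (C := κ2 * ‖x1 - y‖ * ‖x1 - y‖)
      (fun r _ => (hder r).hasDerivWithinAt) (fun r hr => by
        rw [← ContinuousLinearMap.sub_apply]
        refine (ContinuousLinearMap.le_opNorm _ _).trans ?_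
        gcongr
        exact hbd r hr) (⟨le_rfl, zero_le_one⟩ : (0 : ℝ) ∈ Icc (0 : ℝ) 1)
      (⟨zero_le_one, le_rfl⟩ : (1 : ℝ) ∈ Icc (0 : ℝ) 1)
  have e0 : f 0 = w y := by simp [hf]
  have e1 : f 1 = w x1 - fderiv ℝ w y (x1 - y) := by simp [hf]
  rw [e0, e1] at hmv
  have hyp : T.starProjection y = y := Submodule.starProjection_eq_self_iff.2 hy
  -- `xi = -(γ (x1 - y)) - remainder`
  have hs := hw.slope y
  have hdec : xi T w x1 y = -((x1 - y) + fderiv ℝ w y (x1 - y)) -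
      (w x1 - fderiv ℝ w y (x1 - y) - w y) := by
    rw [xi, hyp]; abel
  have hin : (x1 - y) + fderiv ℝ w y (x1 - y) ∈ gpl T (fderiv ℝ w y) :=
    mem_gpl.2 ⟨x1 - y, T.sub_mem hx1 hy, rfl⟩
  have hz : FV.co (gpl T (fderiv ℝ w y)) ((x1 - y) + fderiv ℝ w y (x1 - y)) = 0 := by
    rw [co_apply, Submodule.starProjection_eq_self_iff.2 hin, sub_self]
  rw [hdec, map_sub, map_neg, hz, neg_zero, zero_sub, norm_neg]
  refine (norm_co_le _ _).trans ?_
  calc _ ≤ κ2 * ‖x1 - y‖ * ‖x1 - y‖ * ‖(1 : ℝ) - 0‖ := hmv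
    _ = κ2 * ‖y - x1‖ ^ 2 := by rw [norm_sub_rev]; simp; ring

end Vale.Agent.P214.KMS
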