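import Vale.Agent.P214.KMS.Frame
import Vale.Agent.P214.KMS.Ext

/-!
# P214, block KMS: a smooth kernel with bounds of all derivatives
-/

open Set Filter Topology MeasureTheory Metric
open scoped RealInnerProductSpace ContDiff

set_option linter.all false

namespace Vale.Agent.P214.KMS

open Vale.Agent.P214.FV Vale.Agent.P214.WIN Vale.Agent.P214.ODE
open Vale.Agent.P214.REF (pd bs)

noncomputable section

/-- smooth profile, `1` for `s ≤ 1/2`, `0` for `s ≥ 1` -/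
def sk (s : ℝ) : ℝ := Real.smoothTransition (2 * (1 - s))

/-- its potential -/
def sK (s : ℝ) : ℝ := -(∫ a in (1:ℝ)..s, sk a) / 2

lemma contDiff_sk : ContDiff ℝ ∞ sk := by
  have h1 : ContDiff ℝ ∞ fun s : ℝ => 2 * (1 - s) := by fun_prop
  exact (Real.smoothTransition.contDiff (n := ⊤)).comp h1

lemma sk_nonneg (s : ℝ) : 0 ≤ sk s := Real.smoothTransition.nonneg _

lemma sk_le_one (s : ℝ) : sk s ≤ 1 := Real.smoothTransition.le_one _

lemma sk_one {s : ℝ} (h : s ≤ 1 / 2) : sk s = 1 := Real.smoothTransition.one_of_one_le (by linarith)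

lemma sk_zero {s : ℝ} (h : 1 ≤ s) : sk s = 0 := Real.smoothTransition.zero_of_nonpos (by linarith)

lemma kern_sk : Kern sk (deriv sk) sK where
  pk := ⟨fun s => (contDiff_sk.differentiable (by simp) s).hasDerivAt,
    contDiff_sk.continuous_deriv (by simp), fun s hs => sk_zero hs⟩
  pK := by
    have hc : Continuous sk := contDiff_sk.continuous
    refine ⟨fun s => ?_, ?_, fun s hs => ?_⟩
    · have h1 : HasDerivAt (fun s => ∫ a in (1:ℝ)..s, sk a) (sk s) s :=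
        intervalIntegral.integral_hasDerivAt_right (hc.intervalIntegrable _ _)
          (hc.stronglyMeasurableAtFilter _ _) hc.continuousAt
      exact (h1.neg.div_const 2)
    · exact (hc.neg).div_const _
    · have h1 : ∫ a in (1:ℝ)..s, sk a = ∫ a in (1:ℝ)..s, (0:ℝ) := by
        refine intervalIntegral.integral_congr fun a ha => ?_
        rw [uIcc_of_le hs] at ha
        exact sk_zero ha.1
      unfold sK
      rw [h1]; simp
  nonneg := sk_nonneg

/-- boundedness on the half line of a continuous function vanishing on `[1, ∞)` -/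
lemma exists_bd {f : ℝ → ℝ} (hf : Continuous f) (h0 : ∀ s, 1 ≤ s → f s = 0) :
    ∃ C : ℝ, 0 ≤ C ∧ ∀ s, 0 ≤ s → |f s| ≤ C := by
  obtain ⟨C, hC⟩ := (isCompact_Icc (a := (0:ℝ)) (b := 1)).exists_bound_of_continuousOn hf.continuousOn
  have hC0 : 0 ≤ C := (norm_nonneg _).trans (hC 0 ⟨le_rfl, zero_le_one⟩)
  refine ⟨C, hC0, fun s hs => ?_⟩
  by_cases h1 : s ≤ 1
  · exact hC s ⟨hs, h1⟩
  · rw [h0 s (not_le.1 h1).le]; simpa using hC0

lemma exists_C0 : ∃ C0 : ℝ, 0 ≤ C0 ∧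
    ∀ s, 0 ≤ s → |sk s| ≤ C0 ∧ |deriv sk s| ≤ C0 ∧ |sK s| ≤ C0 := by
  obtain ⟨C1, h1, h1'⟩ := exists_bd kern_sk.pk.continuous kern_sk.pk.zero
  obtain ⟨C2, h2, h2'⟩ := exists_bd kern_sk.pk.cont fun s hs => kern_sk.pk.zero' hs
  obtain ⟨C3, h3, h3'⟩ := exists_bd kern_sk.pK.continuous kern_sk.pK.zero
  refine ⟨C1 + C2 + C3, by positivity, fun s hs => ⟨?_, ?_, ?_⟩⟩
  · linarith [h1' s hs]
  · linarith [h2' s hs]
  · linarith [h3' s hs]

lemma exists_ck (N : ℕ) : ∃ C : ℝ, 0 < C ∧ ∀ i ≤ N, ∀ s, 0 ≤ s → s ≤ 1 →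
    ‖iteratedFDeriv ℝ i sk s‖ ≤ C := by
  have h1 : ∀ i : ℕ, ∃ C : ℝ, ∀ s ∈ Icc (0:ℝ) 1, ‖iteratedFDeriv ℝ i sk s‖ ≤ C := fun i =>
    (isCompact_Icc (a := (0:ℝ)) (b := 1)).exists_bound_of_continuousOn
      (contDiff_sk.continuous_iteratedFDeriv (m := i) (by exact_mod_cast le_top)).continuousOn
  choose C hC using h1
  refine ⟨1 + ∑ i ∈ Finset.range (N + 1), |C i|, by positivity, fun i hi s h0 h1 => ?_⟩
  have h2 : |C i| ≤ ∑ i ∈ Finset.range (N + 1), |C i| :=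
    Finset.single_le_sum (f := fun i => |C i|) (fun _ _ => abs_nonneg _)
      (Finset.mem_range.2 (by omega))
  have := (hC i s ⟨h0, h1⟩).trans (le_abs_self _)
  linarith

/-! ### squares of functions with scaled bounds -/

variable {X : Type*} [NormedAddCommGroup X] [NormedSpace ℝ X]

/-- scaled bounds of derivatives at a point -/
def Scl (N : ℕ) (ρ : ℝ) (f : X → ℝ) (x : X) : Prop :=
  ∀ j ≤ N, ‖iteratedFDeriv ℝ j f x‖ ≤ ρ * ρ⁻¹ ^ j

lemma scl_of {N : ℕ} {ρ : ℝ} {f : X → ℝ} {x : X} (hρ : 0 < ρ) (hρ1 : ρ ≤ 1) (h0 : |f x| ≤ ρ)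
    (h : ∀ j, 1 ≤ j → j ≤ N → ‖iteratedFDeriv ℝ j f x‖ ≤ 1) : Scl N ρ f x := by
  intro j hj
  rcases Nat.eq_zero_or_pos j with rfl | hj0
  · rw [norm_iteratedFDeriv_zero, Real.norm_eq_abs, pow_zero, mul_one]; exact h0
  · refine (h j hj0 hj).trans ?_
    obtain ⟨i, rfl⟩ : ∃ i, j = i + 1 := ⟨j - 1, by omega⟩
    rw [pow_succ]
    have h1 : (1:ℝ) ≤ ρ⁻¹ ^ i := one_le_pow₀ ((one_le_inv₀ hρ).2 hρ1)
    calc (1:ℝ) ≤ ρ⁻¹ ^ i := h1
      _ = ρ * (ρ⁻¹ ^ i * ρ⁻¹) := by field_simp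

lemma norm_iteratedFDeriv_sq_le {N : ℕ} {ρ : ℝ} {f : X → ℝ} {x : X} (hρ : 0 < ρ)
    (hf : ContDiff ℝ ∞ f) (h : Scl N ρ f x) {i : ℕ} (hi : i ≤ N) :
    ‖iteratedFDeriv ℝ i (fun x => f x ^ 2) x‖ ≤ 2 ^ i * (ρ ^ 2 * ρ⁻¹ ^ i) := by
  have h1 : (fun x => f x ^ 2) = fun x => f x * f x := by funext x; ring
  rw [h1]
  refine (norm_iteratedFDeriv_mul_le hf hf x (n := i) (by exact_mod_cast le_top)).trans ?_
  calc ∑ j ∈ Finset.range (i + 1), (i.choose j : ℝ) * ‖iteratedFDeriv ℝ j f x‖ *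
        ‖iteratedFDeriv ℝ (i - j) f x‖
      ≤ ∑ j ∈ Finset.range (i + 1), (i.choose j : ℝ) * (ρ ^ 2 * ρ⁻¹ ^ i) := by
        refine Finset.sum_le_sum fun j hj => ?_
        have hji : j ≤ i := by have := Finset.mem_range.1 hj; omega
        have a1 := h j (hji.trans hi)
        have a2 := h (i - j) ((Nat.sub_le _ _).trans hi)
        rw [mul_assoc]
        refine mul_le_mul_of_nonneg_left ?_ (Nat.cast_nonneg _)
        calc _ ≤ (ρ * ρ⁻¹ ^ j) * (ρ * ρ⁻¹ ^ (i - j)) := by gcongr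
          _ = ρ ^ 2 * (ρ⁻¹ ^ j * ρ⁻¹ ^ (i - j)) := by ring
          _ = ρ ^ 2 * ρ⁻¹ ^ i := by rw [← pow_add]; congr 2; omega
    _ = 2 ^ i * (ρ ^ 2 * ρ⁻¹ ^ i) := by
        rw [← Finset.sum_mul]
        congr 1
        have := Nat.sum_range_choose i
        exact_mod_cast this

/-! ### the kernel in coordinates -/

variable {m n : ℕ}

/-- squared distance on the graph in coordinates -/
def qf (u : Fin n → REF.E m → ℝ) (X x : REF.E m) : ℝ := ‖x - X‖ ^ 2 + ∑ a, (u a x - u a X) ^ 2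

lemma qf_ge (u : Fin n → REF.E m → ℝ) (X x : REF.E m) : ‖x - X‖ ^ 2 ≤ qf u X x := by
  unfold qf
  have : 0 ≤ ∑ a, (u a x - u a X) ^ 2 := Finset.sum_nonneg fun _ _ => sq_nonneg _
  linarith

lemma qf_nonneg (u : Fin n → REF.E m → ℝ) (X x : REF.E m) : 0 ≤ qf u X x :=
  (sq_nonneg _).trans (qf_ge u X x)

lemma contDiff_qf {u : Fin n → REF.E m → ℝ} (hu : ∀ a, ContDiff ℝ ∞ (u a)) (X : REF.E m) :
    ContDiff ℝ ∞ (qf u X) := by
  unfold qf
  refine ((contDiff_id.sub contDiff_const).norm_sq ℝ).add (ContDiff.sum fun a _ => ?_)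
  exact ((hu a).sub contDiff_const).pow 2

/-- the kernel in coordinates -/
def phi (u : Fin n → REF.E m → ℝ) (X : REF.E m) (ρ : ℝ) (x : REF.E m) : ℝ :=
  ρ⁻¹ ^ m * sk (qf u X x / ρ ^ 2)

lemma contDiff_phi {u : Fin n → REF.E m → ℝ} (hu : ∀ a, ContDiff ℝ ∞ (u a)) (X : REF.E m) (ρ : ℝ) :
    ContDiff ℝ ∞ (phi u X ρ) :=
  contDiff_const.mul (contDiff_sk.comp ((contDiff_qf hu X).div_const _))

lemma phi_zero {u : Fin n → REF.E m → ℝ} {X x : REF.E m} {ρ : ℝ} (hρ : 0 < ρ) (h : ρ ≤ ‖x - X‖) :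
    phi u X ρ x = 0 := by
  unfold phi
  rw [sk_zero, mul_zero]
  rw [one_le_div (by positivity)]
  refine le_trans ?_ (qf_ge u X x)
  gcongr

lemma abs_sub_le_of_deriv {f : REF.E m → ℝ} (hf : ContDiff ℝ ∞ f) {L : ℝ}
    (h : ∀ x, ‖iteratedFDeriv ℝ 1 f x‖ ≤ L) (x y : REF.E m) : |f x - f y| ≤ L * ‖x - y‖ := by
  have h1 := (convex_univ : Convex ℝ (univ : Set (REF.E m))).norm_image_sub_le_of_norm_fderiv_le
    (𝕜 := ℝ) (f := f) (C := L) (x := y) (y := x)
    (fun z _ => hf.differentiable (by simp) z)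
    (fun z _ => by rw [← norm_iteratedFDeriv_one]; exact h z) (mem_univ _) (mem_univ _)
  exact h1

/-- **bounds of all derivatives of the kernel** -/
theorem exists_phi_bd (m n N : ℕ) (hN : 1 ≤ N) : ∃ C : ℝ, 0 < C ∧ ∀ (u : Fin n → REF.E m → ℝ)
    (X : REF.E m) (ρ : ℝ), (∀ a, ContDiff ℝ ∞ (u a)) →
    (∀ a, ∀ k ≤ N, ∀ x, ‖iteratedFDeriv ℝ k (u a) x‖ ≤ 1) → 0 < ρ → ρ ≤ 1 → ∀ k ≤ N, ∀ x,
    ‖iteratedFDeriv ℝ k (phi u X ρ) x‖ ≤ C * ρ⁻¹ ^ (m + k) := by
  obtain ⟨Ck, hCk, hck⟩ := exists_ck N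
  set D0 : ℝ := (m + n + 1) * 2 + 4 * (m + n + 1) with hD0
  have hD01 : 1 ≤ D0 := by
    have : (0:ℝ) ≤ m + n := by positivity
    rw [hD0]; linarith
  refine ⟨(N.factorial : ℝ) * Ck * D0 ^ N, by positivity, fun u X ρ hu hub hρ hρ1 k hk x => ?_⟩
  by_cases hx : ρ < ‖x - X‖
  · -- outside
    have hev : phi u X ρ =ᶠ[𝓝 x] fun _ => 0 := by
      have : {y | ρ < ‖y - X‖} ∈ 𝓝 x :=
        (isOpen_lt continuous_const (by fun_prop)).mem_nhds hx
      filter_upwards [this] with y hy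
      exact phi_zero hρ (le_of_lt hy)
    rw [hev.iteratedFDeriv ℝ k |>.eq_of_nhds]
    have : iteratedFDeriv ℝ k (fun _ : REF.E m => (0:ℝ)) x = 0 := by
      simp
    rw [this, norm_zero]
    positivity
  rw [not_lt] at hx
  have hρi : 1 ≤ ρ⁻¹ := (one_le_inv₀ hρ).2 hρ1
  have h0 : phi u X ρ = ρ⁻¹ ^ m • (sk ∘ fun x => qf u X x / ρ ^ 2) := rfl
  have hq : ContDiff ℝ ∞ fun x => qf u X x / ρ ^ 2 := (contDiff_qf hu X).div_const _
  have hcomp : ContDiff ℝ ∞ (sk ∘ fun x => qf u X x / ρ ^ 2) := contDiff_sk.comp hq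
  rw [h0, iteratedFDeriv_const_smul_apply (hcomp.of_le (by exact_mod_cast le_top)).contDiffAt,
    norm_smul]
  have hpm : ‖ρ⁻¹ ^ m‖ = ρ⁻¹ ^ m := by rw [Real.norm_eq_abs, abs_of_pos (by positivity)]
  rw [hpm]
  -- the coordinates
  have hcoord : ∀ i : Fin m, ContDiff ℝ ∞ (fun x : REF.E m => x i - X i) ∧
      Scl N ρ (fun x : REF.E m => x i - X i) x := by
    intro i
    have hsm : ContDiff ℝ ∞ (fun x : REF.E m => x i - X i) :=
      (EuclideanSpace.proj i : REF.E m →L[ℝ] ℝ).contDiff.sub contDiff_const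
    refine ⟨hsm, scl_of hρ hρ1 ?_ fun j hj hjN => ?_⟩
    · have := EuclideanSpace.norm_eq (x - X)
      have h2 : |(x - X) i| ≤ ‖x - X‖ := PiLp.norm_apply_le (x - X) i
      exact h2.trans hx
    · obtain ⟨j', rfl⟩ : ∃ i, j = i + 1 := ⟨j - 1, by omega⟩
      rw [← norm_iteratedFDeriv_fderiv]
      have hfd : fderiv ℝ (fun x : REF.E m => x i - X i) =
          fun _ => (EuclideanSpace.proj i : REF.E m →L[ℝ] ℝ) := by
        funext y
        exact ((EuclideanSpace.proj i : REF.E m →L[ℝ] ℝ).hasFDerivAt.sub_const (X i)).fderiv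
      rw [hfd]
      rcases Nat.eq_zero_or_pos j' with rfl | hj0
      · rw [norm_iteratedFDeriv_zero]
        refine ContinuousLinearMap.opNorm_le_bound _ zero_le_one fun y => ?_
        rw [one_mul]
        exact PiLp.norm_apply_le y i
      · rw [iteratedFDeriv_const_of_ne hj0.ne']
        simp
  have hcomp2 : ∀ a : Fin n, ContDiff ℝ ∞ (fun x : REF.E m => u a x - u a X) ∧
      Scl N ρ (fun x : REF.E m => u a x - u a X) x := by
    intro a
    have hsm : ContDiff ℝ ∞ (fun x : REF.E m => u a x - u a X) := (hu a).sub contDiff_const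
    refine ⟨hsm, scl_of hρ hρ1 ?_ fun j hj hjN => ?_⟩
    · have := abs_sub_le_of_deriv (hu a) (fun y => hub a 1 hN y) x X
      linarith
    · obtain ⟨j', rfl⟩ : ∃ i, j = i + 1 := ⟨j - 1, by omega⟩
      rw [← norm_iteratedFDeriv_fderiv]
      have hfd : fderiv ℝ (fun x : REF.E m => u a x - u a X) = fderiv ℝ (u a) := by
        funext y
        exact fderiv_sub_const _
      rw [hfd, norm_iteratedFDeriv_fderiv]
      exact hub a _ hjN x
  -- the derivatives of the argument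
  have hD : ∀ i, 1 ≤ i → i ≤ k → ‖iteratedFDeriv ℝ i (fun x => qf u X x / ρ ^ 2) x‖ ≤
      (D0 * ρ⁻¹) ^ i := by
    intro i hi1 hik
    have hiN : i ≤ N := hik.trans hk
    have e1 : (fun x => qf u X x / ρ ^ 2) = (ρ ^ 2)⁻¹ • qf u X := by
      funext x; rw [Pi.smul_apply, smul_eq_mul, div_eq_inv_mul]
    rw [e1, iteratedFDeriv_const_smul_apply ((contDiff_qf hu X).of_le (by exact_mod_cast le_top)).contDiffAt,
      norm_smul]
    have e2 : qf u X = fun x => ∑ i : Fin m, (x i - X i) ^ 2 + ∑ a, (u a x - u a X) ^ 2 := by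
      funext x
      unfold qf
      rw [EuclideanSpace.norm_sq_eq]
      congr 1
      refine Finset.sum_congr rfl fun i _ => ?_
      rw [Real.norm_eq_abs, sq_abs]
      rfl
    have s1 : ContDiff ℝ i fun x : REF.E m => ∑ i : Fin m, (x i - X i) ^ 2 :=
      ContDiff.sum fun j _ => ((hcoord j).1.pow 2).of_le (by exact_mod_cast le_top)
    have s2 : ContDiff ℝ i fun x : REF.E m => ∑ a, (u a x - u a X) ^ 2 :=
      ContDiff.sum fun j _ => ((hcomp2 j).1.pow 2).of_le (by exact_mod_cast le_top)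
    have e3 : iteratedFDeriv ℝ i (qf u X) x =
        ∑ j : Fin m, iteratedFDeriv ℝ i (fun x : REF.E m => (x j - X j) ^ 2) x +
        ∑ a, iteratedFDeriv ℝ i (fun x : REF.E m => (u a x - u a X) ^ 2) x := by
      rw [e2, show (fun x : REF.E m => ∑ i : Fin m, (x i - X i) ^ 2 + ∑ a, (u a x - u a X) ^ 2) =
        (fun x : REF.E m => ∑ i : Fin m, (x i - X i) ^ 2) +
        (fun x : REF.E m => ∑ a, (u a x - u a X) ^ 2) from rfl,
        iteratedFDeriv_add_apply s1.contDiffAt s2.contDiffAt]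
      congr 1
      · rw [iteratedFDeriv_fun_sum_apply]
        exact fun j _ => (((hcoord j).1.pow 2).of_le (by exact_mod_cast le_top)).contDiffAt
      · rw [iteratedFDeriv_fun_sum_apply]
        exact fun j _ => (((hcomp2 j).1.pow 2).of_le (by exact_mod_cast le_top)).contDiffAt
    have e4 : ‖iteratedFDeriv ℝ i (qf u X) x‖ ≤ (m + n) * (2 ^ i * (ρ ^ 2 * ρ⁻¹ ^ i)) := by
      rw [e3]
      refine (norm_add_le _ _).trans ?_
      rw [add_mul]
      refine add_le_add ?_ ?_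
      · refine (norm_sum_le _ _).trans ?_
        refine (Finset.sum_le_sum fun j _ => norm_iteratedFDeriv_sq_le hρ (hcoord j).1
          (hcoord j).2 hiN).trans (le_of_eq ?_)
        simp
      · refine (norm_sum_le _ _).trans ?_
        refine (Finset.sum_le_sum fun j _ => norm_iteratedFDeriv_sq_le hρ (hcomp2 j).1
          (hcomp2 j).2 hiN).trans (le_of_eq ?_)
        simp
    have hinv : ‖(ρ ^ 2)⁻¹‖ = (ρ ^ 2)⁻¹ := by rw [Real.norm_eq_abs, abs_of_pos (by positivity)]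
    rw [hinv]
    calc (ρ ^ 2)⁻¹ * ‖iteratedFDeriv ℝ i (qf u X) x‖
        ≤ (ρ ^ 2)⁻¹ * ((m + n) * (2 ^ i * (ρ ^ 2 * ρ⁻¹ ^ i))) := by gcongr
      _ = (m + n) * (2 ^ i * ρ⁻¹ ^ i) := by field_simp
      _ ≤ (m + n + 1) ^ i * (2 ^ i * ρ⁻¹ ^ i) := by
          gcongr
          have h1 : (1:ℝ) ≤ m + n + 1 := by
            have : (0:ℝ) ≤ m + n := by positivity
            linarith
          calc (m + n : ℝ) ≤ (m + n + 1) ^ 1 := by linarith
            _ ≤ (m + n + 1) ^ i := pow_le_pow_right₀ h1 hi1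
      _ = ((m + n + 1) * 2 * ρ⁻¹) ^ i := by rw [mul_pow, mul_pow]; ring
      _ ≤ (D0 * ρ⁻¹) ^ i := by
          gcongr
          rw [hD0]
          have : (0:ℝ) ≤ 4 * (m + n + 1) := by positivity
          linarith
  -- the argument is in `[0, 2]`, treat the part beyond `1` by vanishing
  by_cases hs1 : qf u X x / ρ ^ 2 ≤ 1
  · have hC : ∀ i, i ≤ k → ‖iteratedFDeriv ℝ i sk (qf u X x / ρ ^ 2)‖ ≤ Ck := fun i hi =>
      hck i (hi.trans hk) _ (div_nonneg (qf_nonneg u X x) (by positivity)) hs1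
    have hfin := norm_iteratedFDeriv_comp_le (N := ∞) contDiff_sk hq
      (by exact_mod_cast le_top) x hC hD
    calc ρ⁻¹ ^ m * ‖iteratedFDeriv ℝ k (sk ∘ fun x => qf u X x / ρ ^ 2) x‖
        ≤ ρ⁻¹ ^ m * (k.factorial * Ck * (D0 * ρ⁻¹) ^ k) := by gcongr
      _ ≤ ρ⁻¹ ^ m * (N.factorial * Ck * (D0 ^ N * ρ⁻¹ ^ k)) := by
          rw [mul_pow]
          gcongr
      _ = _ := by rw [pow_add]; ring
  · -- beyond `1` the kernel vanishes near `x`
    rw [not_le] at hs1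
    have hev : (sk ∘ fun x => qf u X x / ρ ^ 2) =ᶠ[𝓝 x] fun _ => 0 := by
      have : {y | 1 < qf u X y / ρ ^ 2} ∈ 𝓝 x :=
        (isOpen_lt continuous_const hq.continuous).mem_nhds hs1
      filter_upwards [this] with y hy
      exact sk_zero (le_of_lt hy)
    rw [hev.iteratedFDeriv ℝ k |>.eq_of_nhds]
    have : iteratedFDeriv ℝ k (fun _ : REF.E m => (0:ℝ)) x = 0 := by
      simp
    rw [this, norm_zero, mul_zero]
    positivity

/-! ### the kernel on the ambient space -/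

variable {E : Type*} [NormedAddCommGroup E] [InnerProductSpace ℝ E] [FiniteDimensional ℝ E]
variable {T : Submodule ℝ E} {F : Frame m n T} {u : Fin n → REF.E m → ℝ}

lemma norm_sq_lift_sub (y z : E) : ‖F.lift u y - F.lift u z‖ ^ 2 =
    ∑ a, (u a (F.xc y) - u a (F.xc z)) ^ 2 := by
  have h1 : F.lift u y - F.lift u z =
      ((∑ a, (u a (F.xc y) - u a (F.xc z)) • F.bN a : Tᗮ) : E) := by
    unfold Frame.lift
    rw [← Finset.sum_sub_distrib]
    simp [sub_smul]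
  rw [h1, Submodule.norm_coe]
  have h2 := F.bN.orthonormal.inner_sum (fun a => u a (F.xc y) - u a (F.xc z))
    (fun a => u a (F.xc y) - u a (F.xc z)) Finset.univ
  rw [← real_inner_self_eq_norm_sq, h2]
  refine Finset.sum_congr rfl fun a _ => ?_
  simp only [conj_trivial]
  ring

lemma norm_sq_xi_lift (hu : ∀ a, ContDiff ℝ ∞ (u a)) (z y : E) :
    ‖xi T (F.lift u) (T.starProjection z) y‖ ^ 2 = qf u (F.xc z) (F.xc y) := by
  rw [norm_sq_xi (ref_lift hu) (T.starProjection_apply_mem z), norm_sq_lift_sub, xc_star,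
    ← norm_xc_sub F, qf]

lemma ker_lift (hu : ∀ a, ContDiff ℝ ∞ (u a)) (z y : E) {ρ : ℝ} (hρ : 0 < ρ) :
    ρ ^ (-m : ℤ) * ker T (F.lift u) (T.starProjection z) sk ρ y = phi u (F.xc z) ρ (F.xc y) := by
  rw [ker, norm_sq_xi_lift hu, phi, zpow_neg, zpow_natCast, inv_pow]

end

end Vale.Agent.P214.KMS
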