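import Vale.Agent.P214.KMS.Alg
import Mathlib.Analysis.Calculus.ParametricIntegral
import Mathlib.Analysis.Calculus.FDeriv.Symmetric

/-!
# P214, block KMS: averages `∫ g (x - y) • v y dν` against a finite measure
-/

open Set Filter Topology MeasureTheory Metric
open scoped RealInnerProductSpace ContDiff

set_option linter.all false

namespace Vale.Agent.P214.KMS

open Vale.Agent.P214.FV

section dir

variable {E : Type*} [NormedAddCommGroup E] [NormedSpace ℝ E]
variable {F : Type*} [NormedAddCommGroup F] [NormedSpace ℝ F]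

lemma two_le_inf : (2 : WithTop ℕ∞) ≤ ∞ :=
  WithTop.coe_le_coe.2 (le_top : (2 : ℕ∞) ≤ ⊤)

/-- directional derivative -/
noncomputable def dd (e : E) (f : E → F) (x : E) : F := fderiv ℝ f x e

lemma contDiff_dd {f : E → F} (hf : ContDiff ℝ ∞ f) (e : E) : ContDiff ℝ ∞ (dd e f) :=
  (hf.fderiv_right (m := ∞) le_rfl).clm_apply contDiff_const

lemma dd_dd {f : E → F} (hf : ContDiff ℝ ∞ f) (e u x : E) :
    dd e (dd u f) x = fderiv ℝ (fderiv ℝ f) x e u := by
  have h1 : ContDiff ℝ 1 (fderiv ℝ f) := (hf.of_le two_le_inf).fderiv_right (by norm_num)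
  have h2 : HasFDerivAt (dd u f) ((ContinuousLinearMap.apply ℝ F u).comp (fderiv ℝ (fderiv ℝ f) x)) x :=
    (ContinuousLinearMap.apply ℝ F u).hasFDerivAt.comp x (h1.differentiable (by norm_num) x).hasFDerivAt
  rw [dd, h2.fderiv]
  rfl

lemma dd_comm {f : E → F} (hf : ContDiff ℝ ∞ f) (e u : E) : dd e (dd u f) = dd u (dd e f) := by
  funext x
  rw [dd_dd hf, dd_dd hf]
  have h : IsSymmSndFDerivAt ℝ f x :=
    (hf.contDiffAt (x := x)).isSymmSndFDerivAt (by
      rw [minSmoothness_of_isRCLikeNormedField]; exact two_le_inf)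
  exact h e u

/-- iterated directional derivative -/
noncomputable def dm : ∀ {j : ℕ}, (Fin j → E) → (E → F) → E → F
  | 0, _, f => f
  | j + 1, v, f => dd (v 0) (dm (Fin.tail v) f)

lemma contDiff_dm {f : E → F} (hf : ContDiff ℝ ∞ f) : ∀ {j : ℕ} (v : Fin j → E), ContDiff ℝ ∞ (dm v f)
  | 0, _ => hf
  | j + 1, v => contDiff_dd (contDiff_dm hf _) _

lemma iteratedFDeriv_eq_dm {f : E → F} (hf : ContDiff ℝ ∞ f) :
    ∀ {j : ℕ} (v : Fin j → E) (x : E), iteratedFDeriv ℝ j f x v = dm v f x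
  | 0, v, x => by simp [dm]
  | j + 1, v, x => by
    rw [iteratedFDeriv_succ_apply_left]
    have h1 : ContDiff ℝ ∞ (iteratedFDeriv ℝ j f) := hf.iteratedFDeriv_right (m := ∞) (by exact_mod_cast le_top)
    have h2 : HasFDerivAt (fun x => iteratedFDeriv ℝ j f x (Fin.tail v))
        ((ContinuousMultilinearMap.apply ℝ (fun _ : Fin j => E) F (Fin.tail v)).comp
          (fderiv ℝ (iteratedFDeriv ℝ j f) x)) x :=
      (ContinuousMultilinearMap.apply ℝ (fun _ : Fin j => E) F (Fin.tail v)).hasFDerivAt.comp x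
        (h1.differentiable (by simp) x).hasFDerivAt
    have h3 : (fun x => iteratedFDeriv ℝ j f x (Fin.tail v)) = dm (Fin.tail v) f := by
      funext x; exact iteratedFDeriv_eq_dm hf _ x
    rw [h3] at h2
    show _ = dd (v 0) (dm (Fin.tail v) f) x
    rw [dd, h2.fderiv]
    rfl

lemma dm_dd {f : E → F} (hf : ContDiff ℝ ∞ f) (e : E) :
    ∀ {j : ℕ} (v : Fin j → E), dm v (dd e f) = dd e (dm v f)
  | 0, _ => rfl
  | j + 1, v => by
    show dd (v 0) (dm (Fin.tail v) (dd e f)) = dd e (dd (v 0) (dm (Fin.tail v) f))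
    rw [dm_dd hf e, dd_comm (contDiff_dm hf _)]

lemma norm_dm_le {f : E → F} (hf : ContDiff ℝ ∞ f) {j : ℕ} (v : Fin j → E) (x : E) :
    ‖dm v f x‖ ≤ ‖iteratedFDeriv ℝ j f x‖ * ∏ i, ‖v i‖ := by
  rw [← iteratedFDeriv_eq_dm hf]
  exact ContinuousMultilinearMap.le_opNorm _ _

/-- second derivative of an iterated directional derivative -/
lemma norm_fderiv_fderiv_dm_le {f : E → F} (hf : ContDiff ℝ ∞ f) {j : ℕ} (v : Fin j → E) (x : E) :
    ‖fderiv ℝ (fderiv ℝ (dm v f)) x‖ ≤ ‖iteratedFDeriv ℝ (j + 2) f x‖ * ∏ i, ‖v i‖ := by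
  refine ContinuousLinearMap.opNorm_le_bound _ (by positivity) fun e => ?_
  refine ContinuousLinearMap.opNorm_le_bound _ (by positivity) fun u => ?_
  rw [← dd_dd (contDiff_dm hf v)]
  have h1 : dd e (dd u (dm v f)) = dm (Fin.cons e (Fin.cons u v) : Fin (j + 2) → E) f := by
    show _ = dd _ (dd _ (dm _ f))
    simp [Fin.tail_cons]
  rw [h1]
  refine (norm_dm_le hf _ _).trans (le_of_eq ?_)
  rw [Fin.prod_univ_succ, Fin.prod_univ_succ]
  simp only [Fin.cons_zero, Fin.cons_succ]
  ring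

end dir

section conv

variable {E : Type*} [NormedAddCommGroup E] [NormedSpace ℝ E] [MeasurableSpace E] [BorelSpace E]
  [SecondCountableTopology E]
variable {F : Type*} [NormedAddCommGroup F] [NormedSpace ℝ F]

/-- the average `∫ g (x - y) • v y dν` -/
noncomputable def cv (ν : Measure E) (v : E → F) (g : E → ℝ) (x : E) : F := ∫ y, g (x - y) • v y ∂ν

variable {ν : Measure E} {v : E → F}

/-- all derivatives bounded -/
def BddAll (g : E → ℝ) : Prop := ContDiff ℝ ∞ g ∧ ∀ j : ℕ, ∃ C, ∀ x, ‖iteratedFDeriv ℝ j g x‖ ≤ C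

lemma BddAll.dd {g : E → ℝ} (hg : BddAll g) (e : E) : BddAll (dd e g) := by
  refine ⟨contDiff_dd hg.1 e, fun j => ?_⟩
  obtain ⟨C, hC⟩ := hg.2 (j + 1)
  refine ⟨C * ‖e‖, fun x => ?_⟩
  have hC0 : 0 ≤ C := (norm_nonneg _).trans (hC x)
  refine ContinuousMultilinearMap.opNorm_le_bound (by positivity) fun w => ?_
  rw [iteratedFDeriv_eq_dm (contDiff_dd hg.1 e), dm_dd hg.1]
  have h1 : KMS.dd e (dm w g) = dm (Fin.cons e w : Fin (j + 1) → E) g := by
    show _ = KMS.dd _ (dm _ g)
    simp [Fin.tail_cons]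
  rw [h1]
  refine (norm_dm_le hg.1 _ _).trans ?_
  rw [Fin.prod_univ_succ]
  simp only [Fin.cons_zero, Fin.cons_succ]
  rw [← mul_assoc]
  gcongr
  exact hC x

lemma BddAll.bdd {g : E → ℝ} (hg : BddAll g) : ∃ C, 0 ≤ C ∧ ∀ x, ‖g x‖ ≤ C := by
  obtain ⟨C, hC⟩ := hg.2 0
  refine ⟨C, (norm_nonneg _).trans (hC 0), fun x => ?_⟩
  have := hC x
  rwa [norm_iteratedFDeriv_zero] at this

lemma BddAll.bdd_fderiv {g : E → ℝ} (hg : BddAll g) : ∃ C, 0 ≤ C ∧ ∀ x, ‖fderiv ℝ g x‖ ≤ C := by
  obtain ⟨C, hC⟩ := hg.2 1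
  refine ⟨C, (norm_nonneg _).trans (hC 0), fun x => ?_⟩
  have := hC x
  rwa [← norm_iteratedFDeriv_one]

lemma integrable_cv (hv : Integrable v ν) {g : E → ℝ} (hg : BddAll g) (x : E) :
    Integrable (fun y => g (x - y) • v y) ν := by
  obtain ⟨C, hC0, hC⟩ := hg.bdd
  refine hv.bdd_smul C ?_ ?_
  · exact (hg.1.continuous.comp (continuous_const.sub continuous_id)).aestronglyMeasurable
  · exact Eventually.of_forall fun y => hC _

/-- differentiation of the average -/
lemma hasFDerivAt_cv (hv : Integrable v ν) {g : E → ℝ} (hg : BddAll g) (x : E) :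
    HasFDerivAt (cv ν v g) (∫ y, (fderiv ℝ g (x - y)).smulRight (v y) ∂ν) x := by
  obtain ⟨C, hC0, hC⟩ := hg.bdd_fderiv
  have hgd : Differentiable ℝ g := hg.1.differentiable (by simp)
  have hcont : Continuous (fderiv ℝ g) := hg.1.continuous_fderiv (by simp)
  refine hasFDerivAt_integral_of_dominated_of_fderiv_le (s := univ) (bound := fun y => C * ‖v y‖)
    (F' := fun x y => (fderiv ℝ g (x - y)).smulRight (v y)) univ_mem ?_ ?_ ?_ ?_ ?_ ?_
  · exact Eventually.of_forall fun z => (integrable_cv hv hg z).aestronglyMeasurable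
  · exact integrable_cv hv hg x
  · have h1 : Continuous fun q : (E →L[ℝ] ℝ) × F => q.1.smulRight q.2 :=
      (isBoundedBilinearMap_smulRight (𝕜 := ℝ) (E := E) (F := F)).continuous
    exact h1.comp_aestronglyMeasurable
      ((hcont.comp (continuous_const.sub continuous_id)).aestronglyMeasurable.prodMk
        hv.aestronglyMeasurable)
  · refine Eventually.of_forall fun y z _ => ?_
    rw [ContinuousLinearMap.norm_smulRight_apply]
    gcongr
    exact hC _
  · exact hv.norm.const_mul C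
  · refine Eventually.of_forall fun y z _ => ?_
    have h1 : HasFDerivAt (fun z : E => z - y) (ContinuousLinearMap.id ℝ E) z := (hasFDerivAt_id z).sub_const y
    have h2 : HasFDerivAt (fun z : E => g (z - y)) (fderiv ℝ g (z - y)) z := by
      have := (hgd (z - y)).hasFDerivAt.comp z h1
      rwa [ContinuousLinearMap.comp_id] at this
    exact h2.smul_const (v y)

lemma dd_cv (hv : Integrable v ν) {g : E → ℝ} (hg : BddAll g) (e : E) :
    dd e (cv ν v g) = cv ν v (dd e g) := by
  funext x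
  rw [dd, (hasFDerivAt_cv hv hg x).fderiv]
  have hint : Integrable (fun y => (fderiv ℝ g (x - y)).smulRight (v y)) ν := by
    obtain ⟨C, hC0, hC⟩ := hg.bdd_fderiv
    have hcont : Continuous (fderiv ℝ g) := hg.1.continuous_fderiv (by simp)
    refine Integrable.mono' (hv.norm.const_mul C) ?_ (Eventually.of_forall fun y => ?_)
    · have h1 : Continuous fun q : (E →L[ℝ] ℝ) × F => q.1.smulRight q.2 :=
        (isBoundedBilinearMap_smulRight (𝕜 := ℝ) (E := E) (F := F)).continuous
      exact h1.comp_aestronglyMeasurable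
        ((hcont.comp (continuous_const.sub continuous_id)).aestronglyMeasurable.prodMk
          hv.aestronglyMeasurable)
    · rw [ContinuousLinearMap.norm_smulRight_apply]
      gcongr
      exact hC _
  rw [ContinuousLinearMap.integral_apply hint]
  rfl

end conv

end Vale.Agent.P214.KMS
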